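import Mathlib
import Vale.Agent.P043.Space.Mean

/-!
Helper for P043: averaging the dilated equations along steps which keep a prescribed set of periods.
-/

namespace Vale.Agent.P043.Adapted

open Finset Filter Topology Vale.Agent.P043.Space

variable {d : ℕ} {F : Finset (Fin d → ℤ)} {φ : (Fin d → ℤ) → ℝ}

theorem bdd_of_eqn (h : Eqn F φ) : Bdd φ :=
  ⟨1, fun x => abs_le.2 ⟨by linarith [(h.1 x).1], (h.1 x).2⟩⟩

/-- Periods of a difference set of multiples are within the rational span of periods. -/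
theorem exists_scale (φ : (Fin d → ℤ) → ℝ) :
    ∃ N : ℕ, 0 < N ∧ ∀ w, toQ w ∈ perQ φ → (N : ℤ) • w ∈ per φ := by
  let Λ : Submodule ℤ (Fin d → ℤ) :=
    { carrier := {w | toQ w ∈ perQ φ}
      zero_mem' := by
        show toQ (0 : Fin d → ℤ) ∈ perQ φ
        rw [show toQ (0 : Fin d → ℤ) = 0 by funext k; simp [toQ]]
        exact zero_mem _
      add_mem' := fun {a b} ha hb => by
        show toQ (a + b) ∈ perQ φ
        rw [show toQ (a + b) = toQ a + toQ b by funext k; simp [toQ]]
        exact add_mem ha hb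
      smul_mem' := fun n a ha => by
        show toQ (n • a) ∈ perQ φ
        rw [toQ_smul]
        exact Submodule.smul_mem _ _ ha }
  obtain ⟨s, hs⟩ := (IsNoetherian.noetherian Λ : Λ.FG)
  have hmem : ∀ v ∈ s, toQ v ∈ perQ φ := fun v hv => by
    have : v ∈ Λ := hs ▸ Submodule.subset_span hv
    exact this
  classical
  choose c hc hcp using fun v : s => exists_multiple (hmem v v.2)
  refine ⟨(∏ v, c v).natAbs, Int.natAbs_pos.2 (prod_ne_zero_iff.2 fun v _ => hc v), fun w hw => ?_⟩
  have hin : ∀ v ∈ Submodule.span ℤ (s : Set (Fin d → ℤ)), toQ v ∈ perQ φ := by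
    rw [hs]; exact fun v hv => hv
  have hw' : w ∈ Submodule.span ℤ (s : Set (Fin d → ℤ)) := hs.symm ▸ hw
  induction hw' using Submodule.span_induction with
  | mem v hv =>
    obtain ⟨e, he⟩ : c ⟨v, hv⟩ ∣ ((∏ v, c v).natAbs : ℤ) :=
      Int.dvd_natAbs.2 (dvd_prod_of_mem _ (mem_univ _))
    rw [he, mul_comm, mul_smul]
    exact zsmul_mem (hcp ⟨v, hv⟩) e
  | zero => rw [smul_zero]; exact zero_mem _
  | add a b ha hb iha ihb =>
    rw [smul_add]
    exact add_mem (iha (hin _ ha)) (ihb (hin _ hb))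
  | smul n a ha iha =>
    rw [smul_comm]
    exact zsmul_mem (iha (hin _ ha)) n

/-- Averaging: the translates along differences inside the span of the periods stay, every other
one gets a new period. -/
theorem exists_terms (hφ : Eqn F φ) (h : Fin d → ℤ) :
    ∃ ψ : (Fin d → ℤ) → (Fin d → ℤ) → ℝ, (∀ g, Eqn F (ψ g)) ∧
      (∀ g, perQ φ ≤ perQ (ψ g)) ∧
      (∀ g, toQ (g - h) ∈ perQ (ψ g)) ∧
      (∀ g x, toQ (g - h) ∈ perQ φ → ψ g x = φ (x - (g - h))) ∧
      ∀ x, ∑ g ∈ F, ψ g x = 1 := by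
  obtain ⟨N, hN, hper⟩ := exists_scale φ
  let u : (Fin d → ℤ) → Fin d → ℤ := fun g => (-(step F * (N : ℤ))) • (g - h)
  have hB := bdd_of_eqn hφ
  have hshift : ∀ (v : Fin d → ℤ), Bdd fun y => φ (y - v) := fun v =>
    hB.elim fun B hb => ⟨B, fun y => hb _⟩
  let ψ : (Fin d → ℤ) → (Fin d → ℤ) → ℝ := fun g => mean (u g) fun y => φ (y - (g - h))
  have hlim : ∀ g x, Tendsto (avg (u g) (fun y => φ (y - (g - h))) x) (ult : Filter ℕ)
      (𝓝 (ψ g x)) := fun g x => tendsto_mean (hshift _) _ _
  have hterm : ∀ g x (n : ℕ), φ (x + (n : ℤ) • u g - (g - h))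
      = φ (x + (1 + step F * ((N * n : ℕ) : ℤ)) • h - (1 + step F * ((N * n : ℕ) : ℤ)) • g) := by
    intro g x n
    congr 1
    funext k
    simp [u]
    ring
  have hev : ∀ᶠ m : ℕ in (ult : Filter ℕ), (m : ℝ) ≠ 0 := by
    filter_upwards [ult_le (eventually_gt_atTop 0)] with m hm
    exact Nat.cast_ne_zero.2 (Nat.pos_iff_ne_zero.1 hm)
  refine ⟨ψ, fun g => ⟨fun x => ?_, fun n x => ?_⟩, fun g => ?_, fun g => ?_, fun g x hg => ?_,
    fun x => ?_⟩
  · refine isClosed_Icc.mem_of_tendsto (hlim g x) (Eventually.of_forall fun m => ?_)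
    refine ⟨div_nonneg (sum_nonneg fun n _ => (hφ.1 _).1) (Nat.cast_nonneg m),
      div_le_one_of_le₀ ((sum_le_sum fun n _ => (hφ.1 _).2).trans (by simp)) (Nat.cast_nonneg m)⟩
  · refine tendsto_nhds_unique (tendsto_finsetSum _ fun k _ => hlim g _)
      (tendsto_const_nhds.congr' ?_)
    filter_upwards [hev] with m hm
    simp only [avg, ← sum_div]
    rw [sum_comm, sum_congr rfl (g := fun _ => (1 : ℝ))]
    · simp [hm]
    · intro l _
      rw [← hφ.2 n (x + (l : ℤ) • u g - (g - h))]
      refine sum_congr rfl fun k _ => congrArg φ ?_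
      abel
  · refine Submodule.span_mono (Set.image_mono fun v hv => ?_)
    refine per_le_mean (hshift _) (u g) fun y => ?_
    show φ (y + v - (g - h)) = φ (y - (g - h))
    rw [show y + v - (g - h) = y - (g - h) + v by abel]
    exact hv _
  · have hu : toQ (u g) ∈ perQ (ψ g) :=
      Submodule.subset_span ⟨u g, self_mem_per_mean (hshift _) _, rfl⟩
    rw [toQ_smul, Submodule.smul_mem_iff] at hu
    · exact hu
    · simp [step, Nat.factorial_ne_zero, hN.ne']
  · have hu : u g ∈ per φ := by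
      rw [show u g = (-step F) • ((N : ℤ) • (g - h)) by simp only [u, smul_smul]; ring_nf]
      exact zsmul_mem (hper _ hg) _
    have : u g ∈ per fun y => φ (y - (g - h)) := fun y => by
      show φ (y + u g - (g - h)) = φ (y - (g - h))
      rw [show y + u g - (g - h) = y - (g - h) + u g by abel]
      exact hu _
    show mean (u g) _ x = _
    rw [mean_eq_self (hshift _) this]
  · refine tendsto_nhds_unique (tendsto_finsetSum _ fun g _ => hlim g x)
      (tendsto_const_nhds.congr' ?_)
    filter_upwards [hev] with m hm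
    simp only [avg, ← sum_div]
    rw [sum_comm, sum_congr rfl (g := fun _ => (1 : ℝ))]
    · simp [hm]
    · intro n _
      simp only [hterm]
      exact hφ.2 _ _

end Vale.Agent.P043.Adapted
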