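import Mathlib
import Vale.Agent.P043.Space.Mean
import Vale.Agent.P043.Space.Dual

/-!
Helper for P043: boxes adapted to a rational basis, and functions whose tiling sums survive when the
argument is reduced to one box.
-/

namespace Vale.Agent.P043.Adapted

open Finset Vale.Agent.P043.Space

variable {d : ℕ}

/-- A rational basis with integral coordinate forms, up to the factor `den`. -/
structure Frame (d : ℕ) where
  vec : Fin d → Fin d → ℤ
  form : Fin d → (Fin d → ℤ) →+ ℤ
  den : ℤ
  den_pos : 0 < den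
  expand : ∀ w, den • w = ∑ i, form i w • vec i
  form_span : ∀ (S : Finset (Fin d)) w,
    toQ w ∈ Submodule.span ℚ ((fun i => toQ (vec i)) '' (S : Set (Fin d))) →
      ∀ i, i ∉ S → form i w = 0

theorem toQ_sub (a b : Fin d → ℤ) : toQ (a - b) = toQ a - toQ b := by
  funext k; simp [toQ]

/-- Every rational basis gives a frame. -/
theorem exists_frame {b : Fin d → Fin d → ℤ}
    (hb : LinearIndependent ℚ fun i (k : Fin d) => (b i k : ℚ)) :
    ∃ B : Frame d, B.vec = b := by
  classical
  obtain ⟨c, s, hc, hd, ho⟩ := exists_dual hb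
  have hform : ∀ i j, ((dot (b j) (s i) : ℤ) : ℚ) = if j = i then (c : ℚ) else 0 := by
    intro i j
    rcases eq_or_ne j i with rfl | h
    · rw [if_pos rfl, hd]
    · rw [if_neg h, ho i j h, Int.cast_zero]
  -- the forms applied to a rational combination of the basis
  have key : ∀ (w : Fin d → ℤ) (t : Fin d → ℚ), ∑ i, t i • toQ (b i) = toQ w →
      ∀ i, ((dot (s i) w : ℤ) : ℚ) = c * t i := by
    intro w t ht i
    have h1 : ∀ l, (w l : ℚ) = ∑ j, t j * (b j l : ℚ) := fun l => by
      have := congrFun ht l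
      simpa [toQ, Finset.sum_apply] using this.symm
    rw [dot_apply]
    push_cast
    simp only [h1, mul_sum]
    rw [sum_comm]
    have h2 : ∀ j, ∑ l, (s i l : ℚ) * (t j * (b j l : ℚ)) = t j * if j = i then (c : ℚ) else 0 := by
      intro j
      rw [← hform i j, dot_apply]
      push_cast
      rw [mul_sum]
      exact sum_congr rfl fun l _ => by ring
    simp only [h2, mul_ite, mul_zero, sum_ite_eq', mem_univ, if_true]
    ring
  have hspan : Submodule.span ℚ (Set.range fun i => toQ (b i)) = ⊤ :=
    LinearIndependent.span_eq_top_of_card_eq_finrank' hb (by simp)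
  refine ⟨⟨b, fun i => dot (s i), c, hc, fun w => ?_, fun S w hw i hi => ?_⟩, rfl⟩
  · obtain ⟨t, ht⟩ := (Submodule.mem_span_range_iff_exists_fun ℚ).1
      (show toQ w ∈ Submodule.span ℚ (Set.range fun i => toQ (b i)) by rw [hspan]; trivial)
    funext l
    have := congrFun ht l
    simp only [Finset.sum_apply, Pi.smul_apply, smul_eq_mul, toQ] at this
    suffices h : ((c * w l : ℤ) : ℚ) = ((∑ i, dot (s i) w * b i l : ℤ) : ℚ) by
      simpa using Int.cast_injective h
    push_cast
    rw [← this, mul_sum]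
    exact sum_congr rfl fun i _ => by rw [key w t ht i]; ring
  · let f : (Fin d → ℚ) →ₗ[ℚ] ℚ := ∑ k, (s i k : ℚ) • LinearMap.proj k
    have hf : ∀ v, f (toQ v) = ((dot (s i) v : ℤ) : ℚ) := fun v => by
      simp [f, toQ, dot_apply]
    have hle : Submodule.span ℚ ((fun i => toQ (b i)) '' (S : Set (Fin d))) ≤ LinearMap.ker f := by
      rw [Submodule.span_le]
      rintro _ ⟨j, hj, rfl⟩
      have hji : j ≠ i := fun e => hi (e ▸ hj)
      have := hform i j
      rw [if_neg hji, dot_apply] at this
      simp only [SetLike.mem_coe, LinearMap.mem_ker, hf, dot_apply]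
      rw [← this]
      push_cast
      exact sum_congr rfl fun l _ => mul_comm _ _
    have := hle hw
    rw [LinearMap.mem_ker, hf] at this
    exact_mod_cast this

variable (B : Frame d)

/-- Reduction of the argument to one box of size `M`. -/
def rep (M : ℤ) (y : Fin d → ℤ) : Fin d → ℤ :=
  y - M • ∑ i, (B.form i y / (M * B.den)) • B.vec i

theorem rep_periodic {M : ℤ} (hM : 0 < M) (y w : Fin d → ℤ) :
    rep B M (y + (M * B.den) • w) = rep B M y := by
  have hne : M * B.den ≠ 0 := (mul_pos hM B.den_pos).ne'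
  have e : ∀ i, B.form i (y + (M * B.den) • w) / (M * B.den) =
      B.form i y / (M * B.den) + B.form i w := fun i => by
    rw [map_add, map_zsmul, smul_eq_mul, Int.add_mul_ediv_left _ _ hne]
  simp only [rep, e, add_smul, sum_add_distrib, ← B.expand w, smul_add, smul_smul]
  abel

/-- Adding a multiple of the box keeps periods. -/
theorem rep_sub_self (M : ℤ) (y : Fin d → ℤ) : ∃ w, rep B M y = y + M • w :=
  ⟨-∑ i, (B.form i y / (M * B.den)) • B.vec i, by rw [rep, smul_neg, sub_eq_add_neg]⟩

/-- The sums over `F` of the translates survive the reduction to a box. -/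
def Good (F : Finset (Fin d → ℤ)) (φ : (Fin d → ℤ) → ℂ) : Prop :=
  ∃ N : ℤ, 0 < N ∧ ∀ M : ℤ, 0 < M → N ∣ M → ∀ x c,
    ∑ g ∈ F, φ (rep B M (x - g) + c) = ∑ g ∈ F, φ (x - g + c)

variable {B} {F : Finset (Fin d → ℤ)}

theorem good_const (a : ℂ) : Good B F fun _ => a := ⟨1, one_pos, fun _ _ _ _ _ => rfl⟩

theorem Good.congr {φ ψ : (Fin d → ℤ) → ℂ} (h : Good B F φ) (e : ∀ x, φ x = ψ x) : Good B F ψ := by
  rwa [← funext e]

theorem Good.add {φ ψ : (Fin d → ℤ) → ℂ} (h : Good B F φ) (h' : Good B F ψ) :
    Good B F fun x => φ x + ψ x := by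
  obtain ⟨N, hN, e⟩ := h
  obtain ⟨N', hN', e'⟩ := h'
  refine ⟨N * N', mul_pos hN hN', fun M hM hd x c => ?_⟩
  simp only [sum_add_distrib]
  rw [e M hM ((dvd_mul_right N N').trans hd) x c, e' M hM ((dvd_mul_left N' N).trans hd) x c]

theorem Good.smul {φ : (Fin d → ℤ) → ℂ} (h : Good B F φ) (a : ℂ) : Good B F fun x => a * φ x := by
  obtain ⟨N, hN, e⟩ := h
  refine ⟨N, hN, fun M hM hd x c => ?_⟩
  simp only [← mul_sum]
  rw [e M hM hd x c]

theorem Good.shift {φ : (Fin d → ℤ) → ℂ} (h : Good B F φ) (u : Fin d → ℤ) :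
    Good B F fun x => φ (x + u) := by
  obtain ⟨N, hN, e⟩ := h
  refine ⟨N, hN, fun M hM hd x c => ?_⟩
  simpa only [add_assoc] using e M hM hd x (c + u)

theorem Good.sum {α : Type*} {s : Finset α} {φ : α → (Fin d → ℤ) → ℂ}
    (h : ∀ a ∈ s, Good B F (φ a)) : Good B F fun x => ∑ a ∈ s, φ a x := by
  classical
  induction s using Finset.induction_on with
  | empty => simpa using good_const (B := B) (F := F) 0
  | @insert a s ha ih =>
    refine ((h a (mem_insert_self a s)).add (ih fun b hb => h b (mem_insert_of_mem hb))).congr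
      fun x => ?_
    rw [sum_insert ha]

/-- A function which is translated by a character along the span of some basis vectors, with
vanishing character sums of `F` on the cosets of this span. -/
theorem good_killed {S : Finset (Fin d)} {N : ℤ} (hN : 0 < N) {φ : (Fin d → ℤ) → ℂ}
    (hper : ∀ i ∈ S, ∀ x, φ (x + N • B.vec i) = φ x)
    (hkill : ∀ x, ∀ h ∈ F, ∑ g ∈ F,
      (open Classical in if toQ (g - h) ∈ Submodule.span ℚ ((fun i => toQ (B.vec i)) '' (S : Set (Fin d)))
        then φ (x - (g - h)) else 0) = 0) :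
    Good B F φ := by
  classical
  set U := Submodule.span ℚ ((fun i => toQ (B.vec i)) '' (S : Set (Fin d))) with hU
  let key : (Fin d → ℤ) → Set (Fin d → ℤ) := fun g => {h | toQ (g - h) ∈ U}
  have hkey : ∀ {g h}, key g = key h ↔ toQ (g - h) ∈ U := by
    intro g h
    constructor
    · intro e
      have : h ∈ key h := by simp [key, toQ_sub]
      rw [← e] at this
      exact this
    · intro e
      ext k
      simp only [key, Set.mem_ofPred_eq]
      rw [show toQ (g - k) = toQ (g - h) + toQ (h - k) by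
        simp only [toQ_sub]; abel]
      exact U.add_mem_iff_right e
  -- a translate constant on every class sums to zero
  have hzero : ∀ (x : Fin d → ℤ) (c : (Fin d → ℤ) → Fin d → ℤ),
      (∀ g ∈ F, ∀ h ∈ F, toQ (g - h) ∈ U → φ (c g - g) = φ (c h - g)) →
        ∑ g ∈ F, φ (c g - g) = 0 := by
    intro x c hc
    rw [← sum_fiberwise_of_maps_to (g := key) (t := F.image key) fun g hg => mem_image_of_mem _ hg]
    refine sum_eq_zero fun k hk => ?_
    obtain ⟨h, hh, rfl⟩ := mem_image.1 hk
    rw [sum_filter]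
    refine (sum_congr rfl fun g hg => ?_).trans (hkill (c h - h) h hh)
    
    by_cases e : toQ (g - h) ∈ U
    · rw [if_pos (hkey.2 e), if_pos e, hc g hg h hh e]
      congr 1
      abel
    · rw [if_neg (fun e' => e (hkey.1 e')), if_neg e]
  refine ⟨N, hN, fun M _ hd x c => ?_⟩
  have h0 : ∑ g ∈ F, φ (x - g + c) = 0 := by
    rw [sum_congr rfl (g := fun g => φ ((fun _ => x + c) g - g)) fun g _ => ?_]
    · exact hzero x _ fun g _ h _ _ => rfl
    · rw [show x - g + c = x + c - g by abel]
  rw [h0]
  refine (sum_congr rfl fun g _ => ?_).trans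
    (hzero x (fun g => x + c - M • ∑ i, (B.form i (x - g) / (M * B.den)) • B.vec i) ?_)
  · rw [rep]
    congr 1
    abel
  intro g _ h _ e
  obtain ⟨r, hr⟩ := hd
  let pS : AddSubgroup (Fin d → ℤ) :=
    { carrier := {w | ∀ y, φ (y + w) = φ y}
      zero_mem' := fun y => by rw [add_zero]
      add_mem' := fun {a b} ha hb y => by rw [← add_assoc, hb, ha]
      neg_mem' := fun {a} ha y => by rw [← ha (y + -a), neg_add_cancel_right] }
  have hmem : M • ∑ i, (B.form i (x - h) / (M * B.den) - B.form i (x - g) / (M * B.den)) • B.vec i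
      ∈ pS := by
    rw [smul_sum]
    refine sum_mem fun i _ => ?_
    by_cases hi : i ∈ S
    · rw [smul_comm, show M • B.vec i = r • (N • B.vec i) by rw [hr, mul_comm N r, mul_smul]]
      exact zsmul_mem (zsmul_mem (show N • B.vec i ∈ pS from hper i hi) r) _
    · have h0 := B.form_span S (g - h) e i hi
      rw [map_sub, sub_eq_zero] at h0
      rw [map_sub, map_sub, h0, sub_self, zero_smul, smul_zero]
      exact zero_mem _
  refine (congrArg φ ?_).trans (hmem _)
  simp only [sub_smul, sum_sub_distrib, smul_sub]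
  abel

end Vale.Agent.P043.Adapted
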