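import Mathlib
import Vale.Agent.P043.Adapted.Frame
import Vale.Agent.P043.Adapted.Average

/-!
Helper for P043: finite tiles of `ℤ^d` whose exceptional subspaces are adapted to one rational basis
have periodic tilings.
-/

namespace Vale.Agent.P043.Adapted

open Finset Vale.Agent.P043.Space

variable {d : ℕ}

/-- The monomial of an integer vector. -/
noncomputable def mono (z : Fin d → ℂ) (w : Fin d → ℤ) : ℂ := ∏ k, z k ^ w k

theorem mono_add {z : Fin d → ℂ} (hz : ∀ k, z k ≠ 0) (a b : Fin d → ℤ) :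
    mono z (a + b) = mono z a * mono z b := by
  simp only [mono, Pi.add_apply, zpow_add₀ (hz _), prod_mul_distrib]

theorem mono_zero (z : Fin d → ℂ) : mono z 0 = 1 := by simp [mono]

theorem mono_ne_zero {z : Fin d → ℂ} (hz : ∀ k, z k ≠ 0) (w : Fin d → ℤ) : mono z w ≠ 0 :=
  prod_ne_zero_iff.2 fun k _ => zpow_ne_zero _ (hz k)

theorem mono_congr {z : Fin d → ℂ} {N : ℕ} (hz : ∀ k, z k ≠ 0) (hN : ∀ k, z k ^ N = 1)
    {a b : Fin d → ℤ} (e : ∀ k, (a k : ZMod N) = b k) : mono z a = mono z b := by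
  refine prod_congr rfl fun k _ => ?_
  obtain ⟨r, hr⟩ := (ZMod.intCast_eq_intCast_iff_dvd_sub _ _ _).1 (e k)
  rw [show b k = a k + N * r by omega, zpow_add₀ (hz k), zpow_mul, zpow_natCast, hN, one_zpow,
    mul_one]

/-- Reduction modulo `N`. -/
def resZ (N : ℕ) : (Fin d → ℤ) →+ (Fin d → ZMod N) where
  toFun w k := (w k : ZMod N)
  map_zero' := by funext k; simp
  map_add' a b := by funext k; simp

/-- The residues of a subgroup. -/
abbrev Res (N : ℕ) (Λ : AddSubgroup (Fin d → ℤ)) : AddSubgroup (Fin d → ZMod N) := Λ.map (resZ N)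

/-- A representative of a residue. -/
noncomputable def lift (N : ℕ) (Λ : AddSubgroup (Fin d → ℤ)) (ρ : Res N Λ) : Fin d → ℤ :=
  (AddSubgroup.mem_map.1 ρ.2).choose

theorem lift_mem {N : ℕ} {Λ : AddSubgroup (Fin d → ℤ)} (ρ : Res N Λ) : lift N Λ ρ ∈ Λ :=
  (AddSubgroup.mem_map.1 ρ.2).choose_spec.1

theorem res_lift {N : ℕ} {Λ : AddSubgroup (Fin d → ℤ)} (ρ : Res N Λ) :
    resZ N (lift N Λ ρ) = ρ := (AddSubgroup.mem_map.1 ρ.2).choose_spec.2

noncomputable instance {N : ℕ} [NeZero N] (Λ : AddSubgroup (Fin d → ℤ)) : Fintype (Res N Λ) :=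
  Fintype.ofFinite _

/-- The isotypic part of a function for a character. -/
noncomputable def part (N : ℕ) [NeZero N] (Λ : AddSubgroup (Fin d → ℤ)) (z : Fin d → ℂ)
    (φ : (Fin d → ℤ) → ℂ) (x : Fin d → ℤ) : ℂ :=
  ∑ ρ : Res N Λ, (mono z (lift N Λ ρ))⁻¹ * φ (x - lift N Λ ρ)

/-- The integer vectors in the span of the periods. -/
def latQ (φ : (Fin d → ℤ) → ℝ) : AddSubgroup (Fin d → ℤ) where
  carrier := {w | toQ w ∈ perQ φ}
  zero_mem' := by
    show toQ (0 : Fin d → ℤ) ∈ perQ φ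
    rw [show toQ (0 : Fin d → ℤ) = 0 by funext k; simp [toQ]]
    exact zero_mem _
  add_mem' := fun {a b} ha hb => by
    show toQ (a + b) ∈ perQ φ
    rw [show toQ (a + b) = toQ a + toQ b by funext k; simp [toQ]]
    exact add_mem ha hb
  neg_mem' := fun {a} ha => by
    show toQ (-a) ∈ perQ φ
    rw [show toQ (-a) = -toQ a by funext k; simp [toQ]]
    exact neg_mem ha

theorem phi_congr {φ : (Fin d → ℤ) → ℝ} {N : ℕ} (hN : 0 < N)
    (hper : ∀ w, toQ w ∈ perQ φ → (N : ℤ) • w ∈ per φ) {a b : Fin d → ℤ} (ha : a ∈ latQ φ)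
    (hb : b ∈ latQ φ) (e : resZ N a = resZ N b) (x : Fin d → ℤ) : φ (x - a) = φ (x - b) := by
  have hd : ∀ k, (N : ℤ) ∣ b k - a k := fun k =>
    (ZMod.intCast_eq_intCast_iff_dvd_sub _ _ _).1 (congrFun e k)
  choose c hc using hd
  have hba : b - a = (N : ℤ) • c := funext hc
  have hcQ : toQ c ∈ perQ φ := by
    have h1 : toQ (b - a) ∈ perQ φ := (latQ φ).sub_mem hb ha
    rwa [hba, toQ_smul, Submodule.smul_mem_iff] at h1
    exact_mod_cast hN.ne'
  rw [show x - a = x - b + (N : ℤ) • c by rw [← hba]; abel]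
  exact hper c hcQ _

/-- A part is translated by the character along the span of the periods. -/
theorem part_sub {φ : (Fin d → ℤ) → ℝ} {N : ℕ} [NeZero N]
    (hper : ∀ w, toQ w ∈ perQ φ → (N : ℤ) • w ∈ per φ) {z : Fin d → ℂ} (hz : ∀ k, z k ≠ 0)
    (hzN : ∀ k, z k ^ N = 1) {w : Fin d → ℤ} (hw : w ∈ latQ φ) (x : Fin d → ℤ) :
    part N (latQ φ) z (fun y => (φ y : ℂ)) (x - w) =
      mono z w * part N (latQ φ) z (fun y => (φ y : ℂ)) x := by
  set Λ := latQ φ
  let rw' : Res N Λ := ⟨resZ N w, AddSubgroup.mem_map_of_mem _ hw⟩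
  simp only [part, mul_sum]
  refine Fintype.sum_equiv (Equiv.addLeft rw') _ _ fun ρ => ?_
  set ρ' := Equiv.addLeft rw' ρ with hρ'
  have hres : resZ N (w + lift N Λ ρ) = resZ N (lift N Λ ρ') := by
    rw [map_add, res_lift, res_lift, hρ']
    rfl
  have hmem : w + lift N Λ ρ ∈ Λ := add_mem hw (lift_mem ρ)
  rw [show x - w - lift N Λ ρ = x - (w + lift N Λ ρ) by abel,
    phi_congr (Nat.pos_of_ne_zero (NeZero.ne N)) hper hmem (lift_mem ρ') hres x,
    ← mono_congr hz hzN (congrFun hres), mono_add hz, mul_inv, ← mul_assoc, ← mul_assoc,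
    mul_inv_cancel₀ (mono_ne_zero hz w), one_mul]

/-- The parts sum up to a multiple of the function. -/
theorem sum_part {φ : (Fin d → ℤ) → ℝ} {N : ℕ} [NeZero N]
    (hper : ∀ w, toQ w ∈ perQ φ → (N : ℤ) • w ∈ per φ) {ζ : ℂ} (hζ : IsPrimitiveRoot ζ N)
    (x : Fin d → ℤ) :
    ∑ j : Fin d → Fin N, part N (latQ φ) (fun k => ζ ^ (j k : ℕ)) (fun y => (φ y : ℂ)) x =
      (N : ℂ) ^ d * φ x := by
  classical
  simp only [part]
  rw [sum_comm]
  have hinner : ∀ ρ : Res N (latQ φ),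
      ∑ j : Fin d → Fin N, (mono (fun k => ζ ^ (j k : ℕ)) (lift N (latQ φ) ρ))⁻¹
        = if ρ = 0 then (N : ℂ) ^ d else 0 := by
    intro ρ
    set r := lift N (latQ φ) ρ with hr
    have h1 : ∀ j : Fin d → Fin N, (mono (fun k => ζ ^ (j k : ℕ)) r)⁻¹ =
        ∏ k, (ζ ^ (-r k)) ^ (j k : ℕ) := fun j => by
      rw [mono, ← prod_inv_distrib]
      refine prod_congr rfl fun k _ => ?_
      rw [← zpow_neg, ← zpow_natCast, ← zpow_mul, ← zpow_natCast _ (j k : ℕ), ← zpow_mul, mul_comm]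
    simp only [h1]
    rw [← Fintype.prod_sum fun k (i : Fin N) => (ζ ^ (-r k)) ^ (i : ℕ)]
    by_cases h0 : ρ = 0
    · rw [if_pos h0]
      have : ∀ k, ζ ^ (-r k) = 1 := fun k => by
        refine (hζ.zpow_eq_one_iff_dvd _).2 (dvd_neg.2 ?_)
        have h2 := congrFun (res_lift ρ) k
        rw [h0] at h2
        exact (ZMod.intCast_zmod_eq_zero_iff_dvd _ _).1 (by rw [hr, h0]; exact h2)
      simp [this]
    · rw [if_neg h0]
      obtain ⟨k, hk⟩ : ∃ k, (r k : ZMod N) ≠ 0 := by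
        by_contra hno
        push Not at hno
        refine h0 (Subtype.ext ?_)
        rw [← res_lift ρ]
        funext k
        exact hno k
      refine prod_eq_zero (mem_univ k) ?_
      have hne : ζ ^ (-r k) ≠ 1 := fun e =>
        hk ((ZMod.intCast_zmod_eq_zero_iff_dvd _ _).2 (dvd_neg.1 ((hζ.zpow_eq_one_iff_dvd _).1 e)))
      rw [Fin.sum_univ_eq_sum_range fun i => (ζ ^ (-r k)) ^ i, geom_sum_eq hne]
      rw [show (ζ ^ (-r k)) ^ N = 1 by
        rw [← zpow_natCast, ← zpow_mul, mul_comm, zpow_mul, zpow_natCast, hζ.pow_eq_one, one_zpow]]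
      simp
  have h0 : φ (x - lift N (latQ φ) 0) = φ x := by
    have := phi_congr (Nat.pos_of_ne_zero (NeZero.ne N)) hper (lift_mem 0) (zero_mem _)
      (by rw [res_lift, map_zero]; rfl) x
    rwa [sub_zero] at this
  calc _ = ∑ ρ : Res N (latQ φ),
        (if ρ = 0 then (N : ℂ) ^ d else 0) * (φ (x - lift N (latQ φ) ρ) : ℂ) :=
        sum_congr rfl fun ρ _ => by rw [← hinner ρ, sum_mul]
    _ = _ := by simp [ite_mul, h0]

/-- The hypothesis: exceptional subspaces contain exceptional coordinate subspaces of the frame. -/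
def AdaptedTo (B : Frame d) (F : Finset (Fin d → ℤ)) : Prop :=
  ∀ (W : Submodule ℚ (Fin d → ℚ)) (z : Fin d → ℂ), (∀ k, ∃ n : ℕ, 0 < n ∧ z k ^ n = 1) →
    (∀ h ∈ F, ∑ g ∈ F, (open Classical in if toQ (g - h) ∈ W then mono z g else 0) = 0) →
    ∃ S : Finset (Fin d), (∀ i ∈ S, toQ (B.vec i) ∈ W) ∧
      ∀ h ∈ F, ∑ g ∈ F, (open Classical in
        if toQ (g - h) ∈ Submodule.span ℚ ((fun i => toQ (B.vec i)) '' (S : Set (Fin d)))
        then mono z g else 0) = 0

/-- Every solution of the dilated equations keeps its sums in a box. -/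
theorem good_of_eqn {B : Frame d} {F : Finset (Fin d → ℤ)} (hF : AdaptedTo B F) :
    ∀ (n : ℕ) (φ : (Fin d → ℤ) → ℝ), Eqn F φ → d ≤ Module.finrank ℚ (perQ φ) + n →
      Good B F fun x => (φ x : ℂ) := by
  classical
  intro n
  induction n using Nat.strong_induction_on with
  | _ n ih => ?_
  intro φ hφ hn
  obtain ⟨N, hN, hper⟩ := exists_scale φ
  have : NeZero N := ⟨hN.ne'⟩
  obtain ⟨ζ, hζ⟩ : ∃ ζ : ℂ, IsPrimitiveRoot ζ N :=
    ⟨_, Complex.isPrimitiveRoot_exp N hN.ne'⟩
  have hζ0 : ζ ≠ 0 := hζ.ne_zero hN.ne'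
  suffices hpart : ∀ j : Fin d → Fin N, Good B F
      (part N (latQ φ) (fun k => ζ ^ (j k : ℕ)) fun y => (φ y : ℂ)) by
    have := (Good.sum fun j (_ : j ∈ univ) => hpart j).smul (((N : ℂ) ^ d)⁻¹)
    refine this.congr fun x => ?_
    rw [sum_part hper hζ, inv_mul_cancel_left₀ (pow_ne_zero _ (Nat.cast_ne_zero.2 hN.ne'))]
  intro j
  set z : Fin d → ℂ := fun k => ζ ^ (j k : ℕ) with hzdef
  have hz : ∀ k, z k ≠ 0 := fun k => pow_ne_zero _ hζ0
  have hzN : ∀ k, z k ^ N = 1 := fun k => by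
    simp only [hzdef]
    rw [← pow_mul, mul_comm, pow_mul, hζ.pow_eq_one, one_pow]
  set E := part N (latQ φ) z fun y => (φ y : ℂ) with hE
  have hEsub : ∀ w, toQ w ∈ perQ φ → ∀ x, E (x - w) = mono z w * E x := fun w hw x =>
    part_sub hper hz hzN (show w ∈ latQ φ from hw) x
  have hmono : ∀ g h, mono z (g - h) = mono z g * (mono z h)⁻¹ := fun g h => by
    rw [eq_mul_inv_iff_mul_eq₀ (mono_ne_zero hz h), ← mono_add hz, sub_add_cancel]
  by_cases hall : ∀ h ∈ F, ∑ g ∈ F, (if toQ (g - h) ∈ perQ φ then mono z g else 0) = 0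
  · obtain ⟨S, hS, hS0⟩ := hF (perQ φ) z (fun k => ⟨N, hN, hzN k⟩) hall
    have hSle : Submodule.span ℚ ((fun i => toQ (B.vec i)) '' (S : Set (Fin d))) ≤ perQ φ := by
      rw [Submodule.span_le]
      rintro _ ⟨i, hi, rfl⟩
      exact hS i hi
    refine good_killed (S := S) (N := N) (by exact_mod_cast hN) (fun i hi x => ?_)
      fun x h hh => ?_
    · have h1 := hEsub _ (show toQ ((N : ℤ) • B.vec i) ∈ perQ φ by
        rw [toQ_smul]; exact Submodule.smul_mem _ _ (hS i hi)) (x + (N : ℤ) • B.vec i)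
      rw [add_sub_cancel_right, mono_congr hz hzN (b := 0) (fun k => by simp), mono_zero,
        one_mul] at h1
      exact h1.symm
    · have h1 := congrArg (fun t => (mono z h)⁻¹ * E x * t) (hS0 h hh)
      simp only [mul_zero, mul_sum, mul_ite] at h1
      refine (sum_congr rfl fun g _ => ?_).trans h1
      split_ifs with e
      · rw [hEsub _ (hSle e), hmono]; ring
      · rfl
  push Not at hall
  obtain ⟨h, hh, hne⟩ := hall
  obtain ⟨ψ, hψ, hψle, hψg, hψeq, hψsum⟩ := exists_terms hφ h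
  have hout : ∀ g, toQ (g - h) ∉ perQ φ → Good B F fun x => (ψ g x : ℂ) := fun g hg => by
    have hlt : perQ φ < perQ (ψ g) :=
      lt_of_le_of_ne (hψle g) fun e => hg (e ▸ hψg g)
    have h1 := Submodule.finrank_lt_finrank_of_lt hlt
    have h2 : Module.finrank ℚ (perQ (ψ g)) ≤ d := by
      simpa using Submodule.finrank_le (perQ (ψ g))
    exact ih (n - 1) (by omega) _ (hψ g) (by omega)
  -- the coset sum of translates splits
  set T : (Fin d → ℤ) → ℂ := fun x =>
    ∑ g ∈ F, (if toQ (g - h) ∈ perQ φ then (φ (x - (g - h)) : ℂ) else 0) with hT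
  have hgoodT : Good B F T := by
    refine ((good_const (B := B) (F := F) 1).add
      ((Good.sum (s := F.filter fun g => toQ (g - h) ∉ perQ φ) fun g hg =>
        hout g (mem_filter.1 hg).2).smul (-1))).congr fun x => ?_
    have e : (∑ g ∈ F, (ψ g x : ℂ)) = 1 := by exact_mod_cast hψsum x
    rw [← sum_filter_add_sum_filter_not F (fun g => toQ (g - h) ∈ perQ φ)] at e
    have e2 : T x = ∑ g ∈ F.filter (fun g => toQ (g - h) ∈ perQ φ), (ψ g x : ℂ) := by
      rw [hT, sum_filter]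
      refine sum_congr rfl fun g _ => ?_
      by_cases hg : toQ (g - h) ∈ perQ φ
      · simp [if_pos hg, hψeq g x hg]
      · simp [if_neg hg]
    rw [e2]
    linear_combination -e
  -- the same operator applied to the part
  have hpartT : Good B F fun x => part N (latQ φ) z T x :=
    Good.sum fun ρ _ => ((hgoodT.shift (-lift N (latQ φ) ρ)).congr fun x => by
      rw [← sub_eq_add_neg]).smul _
  refine (hpartT.smul (mono z h /
    ∑ g ∈ F, (if toQ (g - h) ∈ perQ φ then mono z g else 0))).congr fun x => ?_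
  have key : part N (latQ φ) z T x =
      (∑ g ∈ F, if toQ (g - h) ∈ perQ φ then mono z g else 0) * ((mono z h)⁻¹ * E x) := by
    rw [sum_mul]
    simp only [part, hT, mul_sum]
    rw [sum_comm]
    refine sum_congr rfl fun g _ => ?_
    by_cases e : toQ (g - h) ∈ perQ φ
    · simp only [if_pos e]
      rw [show mono z g * ((mono z h)⁻¹ * E x) = mono z (g - h) * E x by rw [hmono, mul_assoc],
        ← hEsub _ e]
      simp only [hE, part]
      refine sum_congr rfl fun ρ _ => ?_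
      rw [show x - lift N (latQ φ) ρ - (g - h) = x - (g - h) - lift N (latQ φ) ρ by abel]
    · simp [if_neg e]
  rw [key]
  field_simp [mono_ne_zero hz h]

/-- An adapted tile has a periodic tiling. -/
theorem periodic_of_adapted {B : Frame d} {F : Finset (Fin d → ℤ)} (hF : AdaptedTo B F)
    {A : Set (Fin d → ℤ)} (hA : Tiles A F) :
    ∃ (A' : Set (Fin d → ℤ)) (P : ℤ), 0 < P ∧ Tiles A' F ∧
      ∀ y w, (y + P • w ∈ A' ↔ y ∈ A') := by
  classical
  obtain ⟨M, hM, e⟩ := good_of_eqn hF d (ind A) (eqn_ind hA) (by omega)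
  refine ⟨{y | rep B M y ∈ A}, M * B.den, mul_pos hM B.den_pos, fun x => ?_, fun y w => ?_⟩
  · have h1 : (∑ g ∈ F, (ind A (rep B M (x - g)) : ℂ)) = ∑ g ∈ F, (ind A (x - g) : ℂ) := by
      have := e M hM dvd_rfl x 0
      simpa using this
    have h2 : ∑ g ∈ F, ind A (rep B M (x - g)) = 1 := by
      have h3 : ∑ g ∈ F, ind A (x - g) = 1 := by
        simpa using (eqn_ind hA).2 0 x
      rw [← h3]
      exact_mod_cast h1
    obtain ⟨f, hf, hfA⟩ : ∃ f ∈ F, rep B M (x - f) ∈ A := by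
      by_contra hno
      push Not at hno
      rw [sum_eq_zero fun f hf => ind_of_notMem (hno f hf)] at h2
      exact zero_ne_one h2
    refine ⟨f, ⟨hf, hfA⟩, ?_⟩
    rintro g ⟨hg, hgA⟩
    by_contra hne
    have hsub : ({g, f} : Finset (Fin d → ℤ)) ⊆ F := by simp [insert_subset_iff, hg, hf]
    have := sum_le_sum_of_subset_of_nonneg (f := fun g => ind A (rep B M (x - g))) hsub
      fun g _ _ => (ind_mem_Icc _ _).1
    rw [sum_pair hne, h2, ind_of_mem (show rep B M (x - g) ∈ A from hgA), ind_of_mem hfA] at this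
    norm_num at this
  · show rep B M (y + (M * B.den) • w) ∈ A ↔ rep B M y ∈ A
    rw [rep_periodic B hM]

end Vale.Agent.P043.Adapted
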