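import Mathlib
import Vale.Agent.P043.Adapted.Main
import Vale.Agent.P043.Space.Dirs

/-!
Helper for P043: one exceptional subspace `U`; the exceptional hyperplanes not containing `U` are
finitely many.
-/

namespace Vale.Agent.P043.Adapted

open Finset Vale.Agent.P043.Space

/-- If some point of `F` is alone in the common level set of any two independent normals, then
finitely many pairwise independent vectors contain all directions without a lone hyperplane. -/
theorem exists_planes {d : ℕ} (F : Finset (Fin d → ℤ)) (T : Finset (Fin d → ℤ))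
    (hF : ∀ a b : Fin d → ℤ,
      LinearIndependent ℚ ![fun k => (a k : ℚ), fun k => (b k : ℚ)] →
      (∃ t ∈ T, ∑ k, a k * t k ≠ 0 ∨ ∑ k, b k * t k ≠ 0) →
      ∃ h ∈ F, ∀ g ∈ F, g ≠ h →
        ∑ k, a k * g k ≠ ∑ k, a k * h k ∨ ∑ k, b k * g k ≠ ∑ k, b k * h k) :
    ∃ (m : ℕ) (V : Fin m → Fin d → ℤ), (∀ i, V i ≠ 0) ∧
      (∀ i j, i ≠ j →
        LinearIndependent ℚ ![fun k => (V i k : ℚ), fun k => (V j k : ℚ)]) ∧
      (∀ i, ∃ t ∈ T, ∑ k, V i k * t k ≠ 0) ∧
      ∀ v : Fin d → ℤ, v ≠ 0 → (∃ t ∈ T, ∑ k, v k * t k ≠ 0) →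
        (∀ i, ∀ a b : ℤ, a ≠ 0 → a • v ≠ b • V i) → Lone F v := by
  classical
  -- two non-lone normals with nested level pairs are dependent
  have dep : ∀ v w : Fin d → ℤ, (∃ t ∈ T, ∑ k, v k * t k ≠ 0) → ¬ Lone F v → levelPairs F v ⊆ levelPairs F w →
      ¬ LinearIndependent ℚ ![fun k => (w k : ℚ), fun k => (v k : ℚ)] := by
    intro v w ht hv hsub hind
    obtain ⟨h, hh, halone⟩ := hF w v hind (by obtain ⟨t, h1, h2⟩ := ht; exact ⟨t, h1, Or.inr h2⟩)
    apply hv
    refine ⟨h, hh, fun g hg hne e => ?_⟩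
    rcases halone g hg hne with hw | hv'
    · exact hw (mem_levelPairs.1 (hsub (mem_levelPairs.2 ⟨⟨hg, hh⟩, e⟩))).2
    · exact hv' e
  -- one representative for each possible set of level pairs
  set S := (F ×ˢ F).powerset.filter
    fun s => ∃ v : Fin d → ℤ, (v ≠ 0 ∧ ∃ t ∈ T, ∑ k, v k * t k ≠ 0) ∧ ¬ Lone F v ∧ levelPairs F v = s with hS
  have hrep : ∀ s : S, ∃ v : Fin d → ℤ, (v ≠ 0 ∧ ∃ t ∈ T, ∑ k, v k * t k ≠ 0) ∧ ¬ Lone F v ∧ levelPairs F v = s.1 :=
    fun s => (mem_filter.1 s.2).2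
  choose r hr hrl hrs using hrep
  have hr0 := fun s => (hr s).1
  refine ⟨S.card, fun i => r (S.equivFin.symm i), fun i => hr0 _, fun i j hij => ?_, fun i => (hr _).2, ?_⟩
  · by_contra hdep
    obtain ⟨a, b, ha, hab⟩ := exists_smul_eq (hr0 (S.equivFin.symm i)) hdep
    set v := r (S.equivFin.symm j) with hv
    set w := r (S.equivFin.symm i) with hw
    have hb : b ≠ 0 := fun e => hr0 (S.equivFin.symm j) (by
      rw [e, zero_smul] at hab
      exact (smul_eq_zero.1 hab).resolve_left ha)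
    have key : ∀ f : Fin d → ℤ, a * (∑ k, v k * f k) = b * ∑ k, w k * f k := by
      intro f
      rw [mul_sum, mul_sum]
      refine sum_congr rfl fun k _ => ?_
      rw [← mul_assoc, ← mul_assoc]
      congr 1
      simpa using congrFun hab k
    have e : levelPairs F v = levelPairs F w := by
      ext ⟨f, g⟩
      simp only [mem_levelPairs]
      refine and_congr_right fun _ => ⟨fun h => ?_, fun h => ?_⟩
      · exact mul_left_cancel₀ hb (by rw [← key, ← key, h])
      · exact mul_left_cancel₀ ha (by rw [key, key, h])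
    rw [hv, hw, hrs, hrs] at e
    exact hij (S.equivFin.symm.injective (Subtype.ext e)).symm
  · intro v hv0 hvt hpar
    by_contra hl
    have hmem : levelPairs F v ∈ S :=
      mem_filter.2 ⟨mem_powerset.2 (filter_subset _ _), v, ⟨hv0, hvt⟩, hl, rfl⟩
    set s : S := ⟨_, hmem⟩ with hs
    obtain ⟨a, b, ha, hab⟩ :=
      exists_smul_eq (hr0 s) (dep v (r s) hvt hl (by rw [hrs s]))
    refine hpar (S.equivFin s) a b ha ?_
    simpa using hab

end Vale.Agent.P043.Adapted
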