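import Mathlib
import Vale.Agent.P043.Adapted.Planes

/-!
Helper for P043: with one exceptional subspace a tiling is a part surviving reduction to a box plus
functions constant on finitely many families of hyperplanes.
-/

namespace Vale.Agent.P043.Adapted

open Finset Vale.Agent.P043.Space

variable {d m : ℕ}

/-- A part surviving reduction to a box and periodic along the listed basis vectors, plus functions
constant on hyperplanes up to a lattice. -/
def Mix (B : Frame d) (S : Finset (Fin d)) (F : Finset (Fin d → ℤ)) (V : Fin m → Fin d → ℤ)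
    (φ : (Fin d → ℤ) → ℂ) : Prop :=
  ∃ (L : ℤ) (Φ : (Fin d → ℤ) → ℂ) (u : Fin m → (Fin d → ℤ) → ℂ), 0 < L ∧
    Good B F Φ ∧ (∀ k ∈ S, ∀ x, Φ (x + L • B.vec k) = Φ x) ∧
    (∀ i w, dot (V i) w = 0 → ∀ x, u i (x + L • w) = u i x) ∧
    (∀ x, φ x = Φ x + ∑ i, u i x) ∧ ∀ i, ∃ C : ℝ, ∀ x, ‖u i x‖ ≤ C

variable {B : Frame d} {S : Finset (Fin d)} {F : Finset (Fin d → ℤ)} {V : Fin m → Fin d → ℤ}

theorem mix_of_good {φ : (Fin d → ℤ) → ℂ} {L : ℤ} (hL : 0 < L) (h : Good B F φ)
    (hU : ∀ k ∈ S, ∀ x, φ (x + L • B.vec k) = φ x) : Mix B S F V φ :=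
  ⟨L, φ, fun _ _ => 0, hL, h, hU, fun _ _ _ _ => rfl, fun x => by simp,
    fun _ => ⟨0, fun _ => by simp⟩⟩

theorem mix_const (a : ℂ) : Mix B S F V fun _ => a :=
  mix_of_good one_pos (good_const a) fun _ _ _ => rfl

theorem Mix.congr {φ ψ : (Fin d → ℤ) → ℂ} (h : Mix B S F V φ) (e : ∀ x, φ x = ψ x) :
    Mix B S F V ψ := by rwa [← funext e]

theorem period_mul {α : Type*} {f : (Fin d → ℤ) → α} {L : ℤ} {w : Fin d → ℤ}
    (h : ∀ x, f (x + L • w) = f x) (k : ℤ) : ∀ x, f (x + (k * L) • w) = f x := by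
  induction k using Int.induction_on with
  | zero => intro x; simp
  | succ k ih => intro x; rw [add_mul, one_mul, add_smul, ← add_assoc, h, ih]
  | pred k ih =>
    intro x
    rw [← h, sub_mul, one_mul, sub_smul, add_assoc, sub_add_cancel, ih]

theorem Mix.add {φ ψ : (Fin d → ℤ) → ℂ} (h : Mix B S F V φ) (h' : Mix B S F V ψ) :
    Mix B S F V fun x => φ x + ψ x := by
  obtain ⟨L, Φ, u, hL, hG, hU, hu, e, hC⟩ := h
  obtain ⟨L', Φ', u', hL', hG', hU', hu', e', hC'⟩ := h'
  refine ⟨L * L', fun x => Φ x + Φ' x, fun i x => u i x + u' i x, mul_pos hL hL', hG.add hG',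
    fun k hk x => ?_, fun i w hw x => ?_, fun x => ?_, fun i => ?_⟩
  · have h1 := period_mul (hU k hk) L' x
    have h2 := period_mul (hU' k hk) L x
    rw [mul_comm] at h1
    simp only [h1, h2]
  · have h1 := period_mul (hu i w hw) L' x
    have h2 := period_mul (hu' i w hw) L x
    rw [mul_comm] at h1
    simp only [h1, h2]
  · simp only [e, e', sum_add_distrib]
    ring
  · obtain ⟨C, hc⟩ := hC i
    obtain ⟨C', hc'⟩ := hC' i
    exact ⟨C + C', fun x => (norm_add_le _ _).trans (add_le_add (hc x) (hc' x))⟩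

theorem Mix.smul {φ : (Fin d → ℤ) → ℂ} (h : Mix B S F V φ) (a : ℂ) :
    Mix B S F V fun x => a * φ x := by
  obtain ⟨L, Φ, u, hL, hG, hU, hu, e, hC⟩ := h
  refine ⟨L, fun x => a * Φ x, fun i x => a * u i x, hL, hG.smul a, fun k hk x => by simp only [hU k hk x],
    fun i w hw x => by simp only [hu i w hw x], fun x => ?_, fun i => ?_⟩
  · simp only [e, mul_add, mul_sum]
  · obtain ⟨C, hc⟩ := hC i
    exact ⟨‖a‖ * C, fun x => by rw [norm_mul]; exact mul_le_mul_of_nonneg_left (hc x) (norm_nonneg a)⟩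

theorem Mix.shift {φ : (Fin d → ℤ) → ℂ} (h : Mix B S F V φ) (v : Fin d → ℤ) :
    Mix B S F V fun x => φ (x + v) := by
  obtain ⟨L, Φ, u, hL, hG, hU, hu, e, hC⟩ := h
  refine ⟨L, fun x => Φ (x + v), fun i x => u i (x + v), hL, hG.shift v,
    fun k hk x => by simp only [add_right_comm x _ v, hU k hk],
    fun i w hw x => by simp only [add_right_comm x _ v, hu i w hw],
    fun x => e _, fun i => ?_⟩
  obtain ⟨C, hc⟩ := hC i
  exact ⟨C, fun x => hc _⟩

theorem Mix.sum {α : Type*} {s : Finset α} {φ : α → (Fin d → ℤ) → ℂ}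
    (h : ∀ a ∈ s, Mix B S F V (φ a)) : Mix B S F V fun x => ∑ a ∈ s, φ a x := by
  classical
  induction s using Finset.induction_on with
  | empty => simpa using mix_const (B := B) (S := S) (F := F) (V := V) 0
  | @insert a s ha ih =>
    refine ((h a (mem_insert_self a s)).add (ih fun b hb => h b (mem_insert_of_mem hb))).congr
      fun x => ?_
    rw [sum_insert ha]

/-- Integer normals of a proper subspace, one of them nonzero at a prescribed vector. -/
theorem exists_normal' {W : Submodule ℚ (Fin d → ℚ)} {w : Fin d → ℚ} (hw : w ∉ W) :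
    ∃ v : Fin d → ℤ, (∀ p : Fin d → ℤ, toQ p ∈ W → dot v p = 0) ∧
      (∀ u : Fin d → ℤ, toQ u = w → dot v u ≠ 0) ∧ v ≠ 0 := by
  classical
  obtain ⟨f, hfw, hf⟩ := Submodule.exists_dual_map_eq_bot_of_notMem hw inferInstance
  let c : Fin d → ℚ := fun k => f (Pi.single k 1)
  have hfc : ∀ u : Fin d → ℚ, f u = ∑ k, c k * u k := fun u => by
    conv_lhs => rw [pi_eq_sum_univ' u]
    simp [c, map_sum, map_smul, mul_comm]
  set D : ℕ := ∏ k, (c k).den with hD
  have hD0 : (D : ℚ) ≠ 0 := by simp [hD, Finset.prod_ne_zero_iff]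
  have hex : ∀ k, ∃ n : ℤ, (n : ℚ) = D * c k := fun k => by
    obtain ⟨e, he⟩ : (c k).den ∣ D := Finset.dvd_prod_of_mem _ (mem_univ k)
    refine ⟨e * (c k).num, ?_⟩
    rw [he]
    push_cast
    rw [← Rat.mul_den_eq_num (c k)]
    ring
  choose v hv using hex
  have key : ∀ u : Fin d → ℤ, ((dot v u : ℤ) : ℚ) = D * f (toQ u) := fun u => by
    rw [hfc, mul_sum, dot_apply]
    push_cast
    simp [hv, toQ, mul_assoc]
  refine ⟨v, fun p hp => ?_, fun u hu e => hfw ?_, fun e => hfw ?_⟩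
  · have : f (toQ p) ∈ W.map f := Submodule.mem_map_of_mem hp
    rw [hf, Submodule.mem_bot] at this
    have h1 := key p
    rw [this, mul_zero] at h1
    exact_mod_cast h1
  · have h1 := key u
    rw [e, Int.cast_zero, eq_comm, mul_eq_zero, hu] at h1
    exact h1.resolve_left hD0
  · have hc0 : ∀ k, c k = 0 := fun k => by
      have := hv k
      rw [e, Pi.zero_apply, Int.cast_zero] at this
      exact (mul_eq_zero.1 this.symm).resolve_left hD0
    rw [hfc]; simp [hc0]

/-- The conditions: two independent normals not both vanishing on `U` have a lone point in some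
common level set, and subspaces containing `U` are killed only where `U` is. -/
def SingleBad (B : Frame d) (S : Finset (Fin d)) (F : Finset (Fin d → ℤ)) : Prop :=
  (∀ a c : Fin d → ℤ, LinearIndependent ℚ ![fun k => (a k : ℚ), fun k => (c k : ℚ)] →
    (∃ t ∈ S.image B.vec, ∑ k, a k * t k ≠ 0 ∨ ∑ k, c k * t k ≠ 0) →
    ∃ h ∈ F, ∀ g ∈ F, g ≠ h →
      ∑ k, a k * g k ≠ ∑ k, a k * h k ∨ ∑ k, c k * g k ≠ ∑ k, c k * h k) ∧
  ∀ (W : Submodule ℚ (Fin d → ℚ)) (z : Fin d → ℂ), (∀ k, ∃ n : ℕ, 0 < n ∧ z k ^ n = 1) →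
    (∀ i ∈ S, toQ (B.vec i) ∈ W) → W ≠ ⊤ →
    (∀ h ∈ F, ∑ g ∈ F, (open Classical in if toQ (g - h) ∈ W then mono z g else 0) = 0) →
    ∀ h ∈ F, ∑ g ∈ F, (open Classical in
      if toQ (g - h) ∈ Submodule.span ℚ ((fun i => toQ (B.vec i)) '' (S : Set (Fin d)))
      then mono z g else 0) = 0

/-- The decomposition. -/
theorem mix_of_eqn (hF : SingleBad B S F) (hV : ∀ v : Fin d → ℤ, v ≠ 0 →
    (∃ t ∈ S.image B.vec, ∑ k, v k * t k ≠ 0) →
      (∀ i, ∀ a b : ℤ, a ≠ 0 → a • v ≠ b • V i) → Lone F v) :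
    ∀ (n : ℕ) (φ : (Fin d → ℤ) → ℝ), Eqn F φ → d ≤ Module.finrank ℚ (perQ φ) + n →
      Mix B S F V fun x => (φ x : ℂ) := by
  classical
  intro n
  induction n using Nat.strong_induction_on with
  | _ n ih => ?_
  intro φ hφ hn
  obtain ⟨N, hN, hper⟩ := exists_scale φ
  have : NeZero N := ⟨hN.ne'⟩
  obtain ⟨ζ, hζ⟩ : ∃ ζ : ℂ, IsPrimitiveRoot ζ N :=
    ⟨_, Complex.isPrimitiveRoot_exp N hN.ne'⟩
  have hζ0 : ζ ≠ 0 := hζ.ne_zero hN.ne'
  suffices hpart : ∀ j : Fin d → Fin N, Mix B S F V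
      (part N (latQ φ) (fun k => ζ ^ (j k : ℕ)) fun y => (φ y : ℂ)) by
    refine ((Mix.sum fun j (_ : j ∈ univ) => hpart j).smul (((N : ℂ) ^ d)⁻¹)).congr fun x => ?_
    rw [sum_part hper hζ, inv_mul_cancel_left₀ (pow_ne_zero _ (Nat.cast_ne_zero.2 hN.ne'))]
  intro j
  set z : Fin d → ℂ := fun k => ζ ^ (j k : ℕ) with hzdef
  have hz : ∀ k, z k ≠ 0 := fun k => pow_ne_zero _ hζ0
  have hzN : ∀ k, z k ^ N = 1 := fun k => by
    simp only [hzdef]
    rw [← pow_mul, mul_comm, pow_mul, hζ.pow_eq_one, one_pow]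
  set E := part N (latQ φ) z fun y => (φ y : ℂ) with hE
  have hEsub : ∀ w, toQ w ∈ perQ φ → ∀ x, E (x - w) = mono z w * E x := fun w hw x =>
    part_sub hper hz hzN (show w ∈ latQ φ from hw) x
  have hmono : ∀ g h, mono z (g - h) = mono z g * (mono z h)⁻¹ := fun g h => by
    rw [eq_mul_inv_iff_mul_eq₀ (mono_ne_zero hz h), ← mono_add hz, sub_add_cancel]
  have hEper : ∀ w, toQ w ∈ perQ φ → ∀ x, E (x + (N : ℤ) • w) = E x := fun w hw x => by
    have h1 := hEsub _ (show toQ ((N : ℤ) • w) ∈ perQ φ by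
      rw [toQ_smul]; exact Submodule.smul_mem _ _ hw) (x + (N : ℤ) • w)
    rw [add_sub_cancel_right, mono_congr hz hzN (b := 0) (fun k => by simp), mono_zero,
      one_mul] at h1
    exact h1.symm
  by_cases htop : perQ φ = ⊤
  · have hall : ∀ w x, E (x + (N : ℤ) • w) = E x := fun w x =>
      hEper w (by rw [htop]; exact Submodule.mem_top) x
    refine mix_of_good (L := N) (by exact_mod_cast hN) ⟨N, by exact_mod_cast hN,
      fun M _ hd x c => sum_congr rfl fun g _ => ?_⟩ fun i _ x => hall _ x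
    obtain ⟨w, hw⟩ := rep_sub_self B M (x - g)
    obtain ⟨r, hr⟩ := hd
    rw [hw, hr, mul_smul, add_right_comm, hall]
  by_cases hall : ∀ h ∈ F, ∑ g ∈ F, (if toQ (g - h) ∈ perQ φ then mono z g else 0) = 0
  · by_cases hUW : ∀ i ∈ S, toQ (B.vec i) ∈ perQ φ
    · have hS0 := hF.2 (perQ φ) z (fun k => ⟨N, hN, hzN k⟩) hUW htop hall
      have hSle : Submodule.span ℚ ((fun i => toQ (B.vec i)) '' (S : Set (Fin d))) ≤ perQ φ := by
        rw [Submodule.span_le]
        rintro _ ⟨i, hi, rfl⟩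
        exact hUW i hi
      refine mix_of_good (L := N) (by exact_mod_cast hN) ?_ fun i hi => hEper _ (hUW i hi)
      refine good_killed (S := S) (N := N) (by exact_mod_cast hN)
        (fun i hi => hEper _ (hUW i hi)) fun x h hh => ?_
      have h1 := congrArg (fun t => (mono z h)⁻¹ * E x * t) (hS0 h hh)
      simp only [mul_zero, mul_sum, mul_ite] at h1
      refine (sum_congr rfl fun g _ => ?_).trans h1
      split_ifs with e
      · rw [hEsub _ (hSle e), hmono]; ring
      · rfl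
    -- `U` is outside the span of the periods: no lone coset, so it is a listed hyperplane
    push Not at hUW
    obtain ⟨i₀, hi₀, hout⟩ := hUW
    obtain ⟨a, hap, hau, ha⟩ := exists_normal' hout
    have hau' : dot a (B.vec i₀) ≠ 0 := hau _ rfl
    have hnolone : ∀ h ∈ F, ∃ g ∈ F, g ≠ h ∧ toQ (g - h) ∈ perQ φ := by
      intro h hh
      by_contra hno
      push Not at hno
      have h0 := hall h hh
      rw [sum_eq_single h (fun g hg hgh => if_neg (hno g hg hgh)) (fun h' => absurd hh h'),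
        if_pos (by rw [sub_self, show toQ (0 : Fin d → ℤ) = 0 by funext k; simp [toQ]]; exact zero_mem _)]
        at h0
      exact mono_ne_zero hz h h0
    have hker : ∀ w, dot a w = 0 → toQ w ∈ perQ φ := by
      intro w hw
      by_contra hw'
      obtain ⟨c, hcp, hcw, -⟩ := exists_normal' hw'
      have hcw' : dot c w ≠ 0 := hcw _ rfl
      have hind : LinearIndependent ℚ ![fun k => (a k : ℚ), fun k => (c k : ℚ)] := by
        rw [LinearIndependent.pair_iff]
        intro s t e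
        have hval : ∀ p : Fin d → ℤ, s * (dot a p : ℤ) + t * (dot c p : ℤ) = 0 := fun p => by
          rw [dot_apply, dot_apply]
          push_cast
          rw [mul_sum, mul_sum, ← sum_add_distrib]
          refine sum_eq_zero fun k _ => ?_
          have := congrFun e k
          simp only [Pi.add_apply, Pi.smul_apply, smul_eq_mul, Pi.zero_apply] at this
          linear_combination (p k : ℚ) * this
        have h1 := hval w
        rw [hw, Int.cast_zero, mul_zero, zero_add, mul_eq_zero] at h1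
        have ht : t = 0 := h1.resolve_right (by exact_mod_cast hcw')
        have h2 := hval (B.vec i₀)
        rw [ht, zero_mul, add_zero, mul_eq_zero] at h2
        exact ⟨h2.resolve_right (by exact_mod_cast hau'), ht⟩
      obtain ⟨h, hh, halone⟩ := hF.1 a c hind
        ⟨_, mem_image_of_mem _ hi₀, Or.inl hau'⟩
      obtain ⟨g, hg, hgh, hgW⟩ := hnolone h hh
      have h1 := hap _ hgW
      have h2 := hcp _ hgW
      rw [map_sub, sub_eq_zero, dot_apply, dot_apply] at h1 h2
      exact (halone g hg hgh).elim (fun e => e h1) (fun e => e h2)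
    have hnl : ¬ Lone F a := by
      rintro ⟨h, hh, halone⟩
      obtain ⟨g, hg, hgh, hgW⟩ := hnolone h hh
      have h1 := hap _ hgW
      rw [map_sub, sub_eq_zero, dot_apply, dot_apply] at h1
      exact halone g hg hgh h1
    obtain ⟨i, α, β, hα, hab⟩ : ∃ i, ∃ α β : ℤ, α ≠ 0 ∧ α • a = β • V i := by
      by_contra hno
      push Not at hno
      exact hnl (hV a ha ⟨_, mem_image_of_mem _ hi₀, hau'⟩ fun i α β hα => hno i α β hα)
    have hVa : ∀ w, dot (V i) w = 0 → dot a w = 0 := fun w hw => by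
      have h1 : α * dot a w = β * dot (V i) w := by
        have := congrArg (fun v => dot v w) hab
        simpa [dot_apply, mul_assoc, ← mul_sum] using this
      rw [hw, mul_zero, mul_eq_zero] at h1
      exact h1.resolve_left hα
    refine ⟨N, fun _ => 0, fun i' x => if i' = i then E x else 0, by exact_mod_cast hN,
      good_const 0, fun _ _ _ => rfl, fun i' w hw x => ?_, fun x => by simp, fun i' => ?_⟩
    · simp only
      split_ifs with e
      · subst e; exact hEper w (hker w (hVa w hw)) x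
      · rfl
    · refine ⟨∑ ρ : Res N (latQ φ), ‖(mono z (lift N (latQ φ) ρ))⁻¹‖, fun x => ?_⟩
      simp only
      split_ifs
      · refine (norm_sum_le _ _).trans (sum_le_sum fun ρ _ => ?_)
        rw [norm_mul, Complex.norm_real]
        refine mul_le_of_le_one_right (norm_nonneg _) ?_
        rw [Real.norm_eq_abs, abs_of_nonneg (hφ.1 _).1]
        exact (hφ.1 _).2
      · rw [norm_zero]; exact sum_nonneg fun ρ _ => norm_nonneg _
  push Not at hall
  obtain ⟨h, hh, hne⟩ := hall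
  obtain ⟨ψ, hψ, hψle, hψg, hψeq, hψsum⟩ := exists_terms hφ h
  have hout : ∀ g, toQ (g - h) ∉ perQ φ → Mix B S F V fun x => (ψ g x : ℂ) := fun g hg => by
    have hlt : perQ φ < perQ (ψ g) :=
      lt_of_le_of_ne (hψle g) fun e => hg (e ▸ hψg g)
    have h1 := Submodule.finrank_lt_finrank_of_lt hlt
    have h2 : Module.finrank ℚ (perQ (ψ g)) ≤ d := by
      simpa using Submodule.finrank_le (perQ (ψ g))
    exact ih (n - 1) (by omega) _ (hψ g) (by omega)
  set T : (Fin d → ℤ) → ℂ := fun x =>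
    ∑ g ∈ F, (if toQ (g - h) ∈ perQ φ then (φ (x - (g - h)) : ℂ) else 0) with hT
  have hgoodT : Mix B S F V T := by
    refine ((mix_const (B := B) (S := S) (F := F) (V := V) 1).add
      ((Mix.sum (s := F.filter fun g => toQ (g - h) ∉ perQ φ) fun g hg =>
        hout g (mem_filter.1 hg).2).smul (-1))).congr fun x => ?_
    have e : (∑ g ∈ F, (ψ g x : ℂ)) = 1 := by exact_mod_cast hψsum x
    rw [← sum_filter_add_sum_filter_not F (fun g => toQ (g - h) ∈ perQ φ)] at e
    have e2 : T x = ∑ g ∈ F.filter (fun g => toQ (g - h) ∈ perQ φ), (ψ g x : ℂ) := by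
      rw [hT, sum_filter]
      refine sum_congr rfl fun g _ => ?_
      by_cases hg : toQ (g - h) ∈ perQ φ
      · simp [if_pos hg, hψeq g x hg]
      · simp [if_neg hg]
    rw [e2]
    linear_combination -e
  have hpartT : Mix B S F V fun x => part N (latQ φ) z T x :=
    Mix.sum fun ρ _ => ((hgoodT.shift (-lift N (latQ φ) ρ)).congr fun x => by
      rw [← sub_eq_add_neg]).smul _
  refine (hpartT.smul (mono z h /
    ∑ g ∈ F, (if toQ (g - h) ∈ perQ φ then mono z g else 0))).congr fun x => ?_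
  have key : part N (latQ φ) z T x =
      (∑ g ∈ F, if toQ (g - h) ∈ perQ φ then mono z g else 0) * ((mono z h)⁻¹ * E x) := by
    rw [sum_mul]
    simp only [part, hT, mul_sum]
    rw [sum_comm]
    refine sum_congr rfl fun g _ => ?_
    by_cases e : toQ (g - h) ∈ perQ φ
    · simp only [if_pos e]
      rw [show mono z g * ((mono z h)⁻¹ * E x) = mono z (g - h) * E x by rw [hmono, mul_assoc],
        ← hEsub _ e]
      simp only [hE, part]
      refine sum_congr rfl fun ρ _ => ?_
      rw [show x - lift N (latQ φ) ρ - (g - h) = x - (g - h) - lift N (latQ φ) ρ by abel]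
    · simp [if_neg e]
  rw [key]
  field_simp [mono_ne_zero hz h]

/-- The decomposition of a tiling in real terms. -/
theorem exists_split (hF : SingleBad B S F) {A : Set (Fin d → ℤ)} (hA : Tiles A F) :
    ∃ (m : ℕ) (V : Fin m → Fin d → ℤ) (L : ℤ) (Φ : (Fin d → ℤ) → ℝ)
      (u : Fin m → (Fin d → ℤ) → ℝ), 0 < L ∧ (∀ i, V i ≠ 0) ∧
      (∀ i j, i ≠ j → LinearIndependent ℚ ![fun k => (V i k : ℚ), fun k => (V j k : ℚ)]) ∧
      (∀ i, ∃ k ∈ S, dot (V i) (B.vec k) ≠ 0) ∧
      (∀ M, 0 < M → L ∣ M → ∀ x, ∑ g ∈ F, Φ (rep B M (x - g)) = ∑ g ∈ F, Φ (x - g)) ∧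
      (∀ k ∈ S, L • B.vec k ∈ per Φ) ∧ (∀ i w, dot (V i) w = 0 → L • w ∈ per (u i)) ∧
      (∀ x, ind A x = Φ x + ∑ i, u i x) ∧ ∀ i, Bdd (u i) := by
  obtain ⟨m, V, hV0, hpw, hVU, hV⟩ := exists_planes F (S.image B.vec) hF.1
  obtain ⟨L, Φ, u, hL, ⟨N, hN, hG⟩, hU, hu, e, hC⟩ :=
    mix_of_eqn hF hV d (ind A) (eqn_ind hA) (by omega)
  refine ⟨m, V, L * N, fun x => (Φ x).re, fun i x => (u i x).re, mul_pos hL hN, hV0, hpw,
    fun i => ?_, fun M hM hd x => ?_, fun k hk x => ?_, fun i w hw x => ?_, fun x => ?_,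
    fun i => ?_⟩
  · obtain ⟨t, ht, hne⟩ := hVU i
    obtain ⟨k, hk, rfl⟩ := mem_image.1 ht
    exact ⟨k, hk, hne⟩
  · have h1 := congrArg Complex.re (hG M hM ((dvd_mul_left N L).trans hd) x 0)
    simpa [Complex.re_sum] using h1
  · have h1 := period_mul (hU k hk) N x
    rw [mul_comm] at h1
    simp only [h1]
  · have h1 := period_mul (hu i w hw) N x
    rw [mul_comm] at h1
    simp only [h1]
  · have h1 := congrArg Complex.re (e x)
    simpa [Complex.re_sum] using h1
  · obtain ⟨C, hc⟩ := hC i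
    exact ⟨C, fun x => (Complex.abs_re_le_norm _).trans (hc x)⟩

end Vale.Agent.P043.Adapted
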