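import Mathlib
import Vale.Agent.P043.Adapted.Single
import Vale.Agent.P043.Space.Fibres

/-!
Helper for P043: next to a part periodic along a vector off every listed hyperplane, at most one
hyperplane piece varies on each class of a lattice.
-/

namespace Vale.Agent.P043.Adapted

open Finset Vale.Agent.P043.Space
open Vale.Agent.P043.Rows (IsI Per1)

variable {d m : ℕ}

/-- Steps congruent to multiples of one vector modulo the hyperplane, one along each given vector. -/
theorem exists_steps' {α : Type*} [Fintype α] {a : Fin d → ℤ} (ha : a ≠ 0) (z : α → Fin d → ℤ)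
    (hz : ∀ l, dot a (z l) ≠ 0) :
    ∃ τ : Fin d → ℤ, 0 < dot a τ ∧ ∀ L : ℤ, ∃ steps : List (Fin d → ℤ), L • τ ∈ steps ∧
      (∀ h ∈ steps, ∃ w, dot a w = 0 ∧ h - L • τ = L • w) ∧
      ∀ l, ∃ h ∈ steps, ∃ k : ℤ, h = L • k • z l := by
  classical
  set δ := dot a a
  set P := ∏ l, |dot a (z l)|
  have hP : 0 < P := prod_pos fun l _ => abs_pos.2 (hz l)
  let st : α → Fin d → ℤ := fun l => (δ * (P / dot a (z l))) • z l
  refine ⟨P • a, by rw [dot_smul]; exact mul_pos hP (dot_self_pos ha),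
    fun L => ⟨(L • P • a) :: ((univ : Finset α).toList.map fun l => L • st l),
      List.mem_cons_self, ?_, fun l => ⟨_, List.mem_cons_of_mem _
        (List.mem_map.2 ⟨l, mem_toList.2 (mem_univ l), rfl⟩), _, rfl⟩⟩⟩
  intro h hh
  rcases List.mem_cons.1 hh with rfl | hh
  · exact ⟨0, map_zero _, by rw [sub_self, smul_zero]⟩
  obtain ⟨l, -, rfl⟩ := List.mem_map.1 hh
  refine ⟨st l - P • a, ?_, by rw [smul_sub]⟩
  rw [map_sub, sub_eq_zero, dot_smul, dot_smul]
  have : dot a (z l) ∣ P := (self_dvd_abs _).trans (dvd_prod_of_mem _ (mem_univ l))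
  rw [mul_assoc, Int.ediv_mul_cancel this, mul_comm]

/-- One piece against the averages at the chosen point. -/
theorem side' {A : Set (Fin d → ℤ)} {V : Fin m → Fin d → ℤ}
    (hpw : ∀ i j, i ≠ j → Indep (V i) (V j))
    {L : ℤ} {P : (Fin d → ℤ) → ℝ} {u : Fin m → (Fin d → ℤ) → ℝ} (hL : 0 < L)
    (hP : ∀ i, ∃ z, dot (V i) z ≠ 0 ∧ L • z ∈ per P) (hu : ∀ i w, dot (V i) w = 0 → L • w ∈ per (u i))
    (hsum : ∀ x, ind A x = P x + ∑ i, u i x) (hB : ∀ i, Bdd (u i))
    {E : Finset (Fin d → ℤ)} {h : Fin d → ℤ} {q : ℤ} (hq : 0 < q)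
    {ψ : (Fin d → ℤ) → (Fin d → ℤ) → ℝ} (hψB : ∀ g, Bdd (ψ g))
    (hψg : ∀ g, q • (g - h) ∈ per (ψ g)) (hψ : ∀ x, ind A x = 1 - ∑ g ∈ E, ψ g x)
    (a : Fin m) (b : Fin d → ℤ) {gen : Fin d → Fin d → ℤ} {s : Fin d → ℤ} {c : ℤ} (hc : 0 < c)
    (hgen : ∀ k, dot (V a) (gen k) = 0) (hs : dot (V a) s = 0)
    (hexp : ∀ y, dot (V a) y = 0 → c • y = ∑ k, y k • gen k + dot b y • s)
    {N : ℤ} (hN : 0 < N) (hLN : L ∣ N)
    (hdv : ∀ g ∈ E, dot (V a) (g - h) = 0 → q * dot b (g - h) ∣ N) :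
    ∃ M : ℤ, 0 < M ∧
      (∀ y, dot (V a) y = 0 → M • y ∈ per fun x => ∑ g ∈ E.filter (fun g => dot (V a) (g - h) = 0),
        meanL (List.ofFn fun k => N • gen k) (ψ g) x) ∧
      ∀ y, M • y ∈ per fun x => u a x + ∑ g ∈ E.filter (fun g => dot (V a) (g - h) = 0),
        meanL (List.ofFn fun k => N • gen k) (ψ g) x := by
  classical
  set ws : List (Fin d → ℤ) := List.ofFn fun k => N • gen k with hws
  set la : List (Fin d → ℤ) := ((N * N) • s) :: ws with hla
  set Φ : (Fin d → ℤ) → ℝ := fun x => ∑ g ∈ E.filter (fun g => dot (V a) (g - h) = 0),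
    meanL ws (ψ g) x with hΦ
  set M₁ : ℤ := N * N * c with hM₁
  have hM₁0 : 0 < M₁ := mul_pos (mul_pos hN hN) hc
  have hgenmem : ∀ (φ : (Fin d → ℤ) → ℝ), Bdd φ → ∀ k, N • gen k ∈ per (meanL ws φ) :=
    fun φ hφ k => mem_per_meanL hφ (List.mem_ofFn.2 ⟨k, rfl⟩)
  -- invariance of the selected averages along the hyperplane
  have hkeep : ∀ g ∈ E, dot (V a) (g - h) = 0 → (N * N) • s ∈ per (meanL ws (ψ g)) := by
    intro g hg h0
    obtain ⟨k, hk⟩ := hdv g hg h0
    have h1 : dot b (g - h) • s = c • (g - h) - ∑ l, (g - h) l • gen l := by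
      rw [hexp _ h0, add_sub_cancel_left]
    have e : (N * N) • s =
        (N * k * c) • q • (g - h) - ∑ l, (k * q * (g - h) l) • N • gen l := by
      calc (N * N) • s = (N * k * q) • dot b (g - h) • s := by
            rw [smul_smul]; congr 1
            linear_combination N * hk
        _ = _ := by
            rw [h1, smul_sub, smul_sum, smul_smul, smul_smul]
            congr 1
            · ring_nf
            · exact sum_congr rfl fun l _ => by rw [smul_smul, smul_smul]; ring_nf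
    rw [e]
    exact sub_mem (zsmul_mem (per_le_meanL (hψB g) ws (hψg g)) _)
      (sum_mem fun l _ => zsmul_mem (hgenmem _ (hψB g) l) _)
  have hplane : ∀ (φ : (Fin d → ℤ) → ℝ), (∀ k, N • gen k ∈ per φ) → (N * N) • s ∈ per φ →
      ∀ y, dot (V a) y = 0 → M₁ • y ∈ per φ := by
    intro φ h1 h2 y hy
    have e : M₁ • y = ∑ k, (N * y k) • N • gen k + dot b y • (N * N) • s := by
      rw [hM₁, mul_smul, hexp y hy, smul_add, smul_sum]
      congr 1
      · exact sum_congr rfl fun k _ => by rw [smul_smul, smul_smul]; ring_nf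
      · rw [smul_smul, smul_smul]; ring_nf
    rw [e]
    exact add_mem (sum_mem fun k _ => zsmul_mem (h1 k) _) (zsmul_mem h2 _)
  have hlaplane : ∀ (φ : (Fin d → ℤ) → ℝ), Bdd φ → ∀ y, dot (V a) y = 0 →
      M₁ • y ∈ per (meanL la φ) := fun φ hφ => hplane _
    (fun k => mem_per_meanL hφ (List.mem_cons_of_mem _ (List.mem_ofFn.2 ⟨k, rfl⟩)))
    (mem_per_meanL hφ List.mem_cons_self)
  -- every other summand becomes periodic
  obtain ⟨zP, hzP, hzP'⟩ := hP a
  set K₀ : ℤ := |dot (V a) zP| with hK₀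
  have hK₀0 : 0 < K₀ := abs_pos.2 hzP
  choose z hz hz' using fun l : {l : Fin m // l ≠ a} => (hpw l.1 a l.2).exists_perp
  set K₁ : ℤ := ∏ l : {l : Fin m // l ≠ a}, |dot (V a) (z l)| with hK₁
  set K₂ : ℤ := ∏ g ∈ E.filter (fun g => ¬dot (V a) (g - h) = 0), |dot (V a) (g - h)| with hK₂
  have hK₁0 : 0 < K₁ := prod_pos fun l _ => abs_pos.2 (hz' l)
  have hK₂0 : 0 < K₂ := prod_pos fun g hg => abs_pos.2 (mem_filter.1 hg).2
  set M : ℤ := M₁ * (L * q * (K₁ * K₂) * K₀) with hM
  have hM0 : 0 < M := mul_pos hM₁0 (mul_pos (mul_pos (mul_pos hL hq) (mul_pos hK₁0 hK₂0)) hK₀0)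
  have hmul : ∀ (k : ℤ) {φ : (Fin d → ℤ) → ℝ} {y : Fin d → ℤ}, k ∣ M →
      (∀ y, k • y ∈ per φ) → M • y ∈ per φ := fun k φ y ⟨r, hr⟩ hk => by
    rw [hr, mul_smul]; exact hk _
  refine ⟨M, hM0, fun y hy => ?_, fun y => ?_⟩
  · rw [hM, mul_smul]
    intro x
    refine sum_congr rfl fun g hg => ?_
    obtain ⟨hgE, h0⟩ := mem_filter.1 hg
    exact hplane _ (hgenmem _ (hψB g)) (hkeep g hgE h0) _
      (by rw [dot_smul, hy, mul_zero]) x
  -- two expressions for the average of the indicator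
  have e1 : meanL la (ind A) = fun x => meanL la P x + (u a x + ∑ l : {l : Fin m // l ≠ a}, meanL la (u l.1) x) := by
    have hind : ind A = fun x => P x + ∑ i, u i x := funext hsum
    have hPB : Bdd P := by
      have := (bdd_ind A).sub (Bdd.sum (s := univ) fun i _ => hB i)
      convert this using 2
      rw [hsum]; ring
    rw [hind, meanL_add hPB (Bdd.sum fun i _ => hB i), meanL_sum fun i _ => hB i]
    have hmem : ∀ v ∈ la, ∃ y, dot (V a) y = 0 ∧ v = L • y := by
      intro v hv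
      obtain ⟨r, hr⟩ := hLN
      rcases List.mem_cons.1 hv with rfl | hv
      · exact ⟨(r * N) • s, by rw [dot_smul, hs, mul_zero], by rw [smul_smul, hr]; ring_nf⟩
      · obtain ⟨k, rfl⟩ := List.mem_ofFn.1 hv
        exact ⟨r • gen k, by rw [dot_smul, hgen, mul_zero], by rw [smul_smul, hr]⟩
    funext x
    congr 1
    simp only []
    rw [← add_sum_erase univ _ (mem_univ a), meanL_eq_self (hB a) fun v hv => by
      obtain ⟨y, hy, rfl⟩ := hmem v hv; exact hu a y hy]
    congr 1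
    exact (sum_subtype (univ.erase a) (fun l => by simp) fun l => meanL la (u l) x)
  have e2 : meanL la (ind A) = fun x => 1 - (Φ x +
      ∑ g ∈ E.filter (fun g => ¬dot (V a) (g - h) = 0), meanL la (ψ g) x) := by
    have hneg : ind A = fun x => (1 : ℝ) + ∑ g ∈ E, -ψ g x := by
      funext x; rw [hψ, sum_neg_distrib]; ring
    have hnB : ∀ g, Bdd fun x => -ψ g x := fun g =>
      (hψB g).elim fun B hb => ⟨B, fun x => by rw [abs_neg]; exact hb x⟩
    have hneg' : ∀ g, meanL la (fun x => -ψ g x) = fun x => -meanL la (ψ g) x := fun g => by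
      have := meanL_add (hnB g) (hψB g) la
      simp only [neg_add_cancel, meanL_const] at this
      funext x
      linarith [congrFun this x]
    rw [hneg, meanL_add (bdd_const 1) (Bdd.sum fun g _ => hnB g), meanL_sum fun g _ => hnB g,
      meanL_const]
    funext x
    simp only [hneg', sum_neg_distrib, ← sub_eq_add_neg]
    rw [← sum_filter_add_sum_filter_not E (fun g => dot (V a) (g - h) = 0)]
    congr 2
    refine sum_congr rfl fun g hg => ?_
    obtain ⟨hgE, h0⟩ := mem_filter.1 hg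
    exact congrFun (mean_eq_self ((hψB g).meanL ws) (hkeep g hgE h0)) x
  intro x
  have key : ∀ x, u a x + Φ x = 1 - meanL la P x - (∑ l : {l : Fin m // l ≠ a}, meanL la (u l.1) x) -
      ∑ g ∈ E.filter (fun g => ¬dot (V a) (g - h) = 0), meanL la (ψ g) x := fun x => by
    have h1 := congrFun e1 x
    rw [congrFun e2 x] at h1
    linarith
  show u a (x + M • y) + Φ (x + M • y) = u a x + Φ x
  have hPB : Bdd P := by
    have := (bdd_ind A).sub (Bdd.sum (s := univ) fun i _ => hB i)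
    convert this using 2
    rw [hsum]; ring
  have hPper : M • y ∈ per (meanL la P) := by
    obtain ⟨r', hr'⟩ := self_dvd_abs (dot (V a) zP)
    exact hmul _ ⟨q * (K₁ * K₂) * r', by rw [hM, hK₀, hr']; ring⟩
      (mem_per_of_hyperplane (hlaplane _ hPB) (per_le_meanL hPB la hzP'))
  rw [key, key, hPper x]
  congr 1
  · congr 1
    refine sum_congr rfl fun l _ => ?_
    obtain ⟨r, hr⟩ : |dot (V a) (z l)| ∣ K₁ := dvd_prod_of_mem _ (mem_univ l)
    obtain ⟨r', hr'⟩ := self_dvd_abs (dot (V a) (z l))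
    exact hmul _ ⟨q * K₂ * K₀ * r * r', by rw [hM, hr, hr']; ring⟩ (mem_per_of_hyperplane
      (hlaplane _ (hB l.1)) (per_le_meanL (hB l.1) la (hu l.1 (z l) (hz l)))) x
  · refine sum_congr rfl fun g hg => ?_
    obtain ⟨r, hr⟩ : |dot (V a) (g - h)| ∣ K₂ := dvd_prod_of_mem _ hg
    obtain ⟨r', hr'⟩ := self_dvd_abs (dot (V a) (g - h))
    exact hmul _ ⟨L * K₁ * K₀ * r * r', by rw [hM, hr, hr']; ring⟩ (mem_per_of_hyperplane
      (hlaplane _ (hψB g)) (per_le_meanL (hψB g) la (hψg g))) x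

/-- The ranges of two pieces add up to at most one. -/
theorem pair_range' {F : Finset (Fin d → ℤ)} {A : Set (Fin d → ℤ)} (hA : Tiles A F)
    {V : Fin m → Fin d → ℤ} (hpw : ∀ i j, i ≠ j → Indep (V i) (V j))
    {L : ℤ} {P : (Fin d → ℤ) → ℝ} {u : Fin m → (Fin d → ℤ) → ℝ} (hL : 0 < L)
    (hP : ∀ i, ∃ z, dot (V i) z ≠ 0 ∧ L • z ∈ per P) (hu : ∀ i w, dot (V i) w = 0 → L • w ∈ per (u i))
    (hsum : ∀ x, ind A x = P x + ∑ i, u i x) (hB : ∀ i, Bdd (u i)) {i j : Fin m} (hij : i ≠ j)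
    {h : Fin d → ℤ} (hh : h ∈ F)
    (hlone : ∀ g ∈ F, g ≠ h → dot (V i) g ≠ dot (V i) h ∨ dot (V j) g ≠ dot (V j) h) :
    ∃ L' : ℤ, 0 < L' ∧ ∀ x w w' z z', u i (x + L' • w) - u i (x + L' • w') +
      (u j (x + L' • z) - u j (x + L' • z')) ≤ 1 := by
  classical
  obtain ⟨ψ, hψ, hψg, -, hψsum⟩ := exists_average (eqn_ind hA) hh
  obtain ⟨c, si, sj, hc, hii, hji, hij', hjj⟩ := (hpw i j hij).dual
  have hψB : ∀ g, Bdd (ψ g) := fun g => ⟨1, fun x => abs_le.2
    ⟨by linarith [((hψ g).1 x).1], ((hψ g).1 x).2⟩⟩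
  set q : ℤ := step F with hq
  have hq0 : 0 < q := by simp [hq, step, Nat.factorial_pos]
  set E := F.erase h with hE
  let β : Fin m → (Fin d → ℤ) → ℤ := fun l g =>
    if dot (V l) (g - h) = 0 then 1 else dot (V l) (g - h)
  have hβ : ∀ l g, β l g ≠ 0 := fun l g => by
    simp only [β]; split_ifs with e
    · exact one_ne_zero
    · exact e
  set N : ℤ := L * (q * ∏ g ∈ E, (|β i g| * |β j g|)) with hNdef
  have hN : 0 < N := mul_pos hL (mul_pos hq0
    (prod_pos fun g _ => mul_pos (abs_pos.2 (hβ i g)) (abs_pos.2 (hβ j g))))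
  have hne : ∀ g ∈ E, dot (V i) (g - h) = 0 → dot (V j) (g - h) ≠ 0 := by
    intro g hg h0 h1
    obtain ⟨hgh, hgF⟩ := mem_erase.1 hg
    rw [map_sub, sub_eq_zero] at h0 h1
    exact (hlone g hgF hgh).elim (fun e => e h0) (fun e => e h1)
  have hdiv : ∀ l ∈ ({i, j} : Finset (Fin m)), ∀ g ∈ E, dot (V l) (g - h) ≠ 0 →
      q * dot (V l) (g - h) ∣ N := by
    intro l hl g hg h1
    have e : |β i g| * |β j g| ∣ ∏ g ∈ E, (|β i g| * |β j g|) :=
      dvd_prod_of_mem (fun g => |β i g| * |β j g|) hg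
    refine dvd_mul_of_dvd_right (mul_dvd_mul_left q (dvd_trans ?_ e)) L
    rw [← (if_neg h1 : β l g = dot (V l) (g - h))]
    simp only [mem_insert, mem_singleton] at hl
    rcases hl with rfl | rfl
    · exact (self_dvd_abs _).trans (dvd_mul_right _ _)
    · exact (self_dvd_abs _).trans (dvd_mul_left _ _)
  -- the generators of the common kernel
  let gen : Fin d → Fin d → ℤ := fun k => c • Pi.single k 1 - V i k • si - V j k • sj
  have hsingle : ∀ (a : Fin d → ℤ) k, dot a (Pi.single k 1) = a k := fun a k => by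
    simp [dot_apply, Pi.single_apply]
  have hgen : ∀ k, dot (V i) (gen k) = 0 ∧ dot (V j) (gen k) = 0 := fun k => by
    constructor <;> simp only [gen, map_sub, dot_smul, hsingle, hii, hij', hji, hjj] <;> ring
  have hexp : ∀ y, c • y = ∑ k, y k • gen k + (dot (V i) y • si + dot (V j) y • sj) := by
    intro y
    funext l
    simp only [gen, Pi.add_apply, Finset.sum_apply, Pi.smul_apply, Pi.sub_apply, smul_eq_mul,
      mul_sub, sum_sub_distrib, Pi.single_apply, mul_ite, mul_one, mul_zero, sum_ite_eq, mem_univ,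
      if_true]
    rw [dot_apply, dot_apply, sum_mul, sum_mul]
    simp only [mul_comm, mul_left_comm]
    ring
  have hψsum' : ∀ x, ind A x = 1 - ∑ g ∈ E, ψ g x := hψsum
  obtain ⟨Mi, hMi, hΦi, hupi⟩ := side' hpw hL hP hu hsum hB hq0 hψB hψg hψsum' i (V j) hc
    (gen := gen) (fun k => (hgen k).1) hij'
    (fun y hy => by rw [hexp, hy, zero_smul, zero_add]) hN (dvd_mul_right _ _)
    (fun g hg h0 => hdiv j (by simp) g hg (hne g hg h0))
  obtain ⟨Mj, hMj, hΦj, hupj⟩ := side' hpw hL hP hu hsum hB hq0 hψB hψg hψsum' j (V i) hc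
    (gen := gen) (fun k => (hgen k).2) hji
    (fun y hy => by rw [hexp, hy, zero_smul, add_zero]) hN (dvd_mul_right _ _)
    (fun g hg h0 => hdiv i (by simp) g hg fun h1 => hne g hg h1 h0)
  set ws : List (Fin d → ℤ) := List.ofFn fun k => N • gen k
  set Φi : (Fin d → ℤ) → ℝ := fun x => ∑ g ∈ E.filter (fun g => dot (V i) (g - h) = 0),
    meanL ws (ψ g) x
  set Φj : (Fin d → ℤ) → ℝ := fun x => ∑ g ∈ E.filter (fun g => dot (V j) (g - h) = 0),
    meanL ws (ψ g) x
  have hnn : ∀ g x, 0 ≤ meanL ws (ψ g) x := fun g x => by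
    have := meanL_mono (bdd_const 0) (hψB g) (fun y => ((hψ g).1 y).1) ws x
    rwa [meanL_const] at this
  have hle : ∀ x, Φi x + Φj x ≤ 1 := fun x => by
    have hd : Disjoint (E.filter fun g => dot (V i) (g - h) = 0)
        (E.filter fun g => dot (V j) (g - h) = 0) := by
      rw [Finset.disjoint_left]
      intro g hg hg'
      exact hne g (mem_filter.1 hg).1 (mem_filter.1 hg).2 (mem_filter.1 hg').2
    have h1 : Φi x + Φj x ≤ ∑ g ∈ E, meanL ws (ψ g) x := by
      rw [← sum_union hd]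
      exact sum_le_sum_of_subset_of_nonneg (union_subset (filter_subset _ _) (filter_subset _ _))
        fun g _ _ => hnn g x
    refine h1.trans ?_
    have h2 := meanL_mono (Bdd.sum (s := E) fun g _ => hψB g) (bdd_const 1) (fun y => by
      have := hψsum' y; linarith [(ind_mem_Icc A y).1]) ws x
    rwa [meanL_sum fun g _ => hψB g, meanL_const] at h2
  have h0i : ∀ x, 0 ≤ Φi x := fun x => sum_nonneg fun g _ => hnn g x
  have h0j : ∀ x, 0 ≤ Φj x := fun x => sum_nonneg fun g _ => hnn g x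
  refine ⟨Mi * Mj * c, mul_pos (mul_pos hMi hMj) hc, fun x w w' z z' => ?_⟩
  set T : ℤ := Mi * Mj * c with hT
  set p : Fin d → ℤ := x + (Mi * Mj) • (dot (V i) w' • si + dot (V j) z' • sj) with hp
  have ei : ∀ v, u i (x + T • v) = (u i x + Φi x) - Φi (x + T • v) := fun v => by
    have h1 := hupi ((Mj * c) • v) x
    simp only at h1
    rw [smul_smul, ← mul_assoc, ← hT] at h1
    show _ = u i x + Φi x - Φi (x + T • v)
    linarith
  have ej : ∀ v, u j (x + T • v) = (u j x + Φj x) - Φj (x + T • v) := fun v => by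
    have h1 := hupj ((Mi * c) • v) x
    simp only at h1
    rw [smul_smul, show Mj * (Mi * c) = T by rw [hT]; ring] at h1
    linarith
  have pi' : Φi p = Φi (x + T • w') := by
    have h1 := hΦi (Mj • (dot (V i) w' • si + dot (V j) z' • sj - c • w'))
      (by simp only [dot_smul, map_add, map_sub, hii, hij']; ring) (x + T • w')
    rw [hp, ← h1]
    congr 1
    simp only [smul_sub, smul_add, smul_smul, hT, mul_assoc]
    abel
  have pj' : Φj p = Φj (x + T • z') := by
    have h1 := hΦj (Mi • (dot (V i) w' • si + dot (V j) z' • sj - c • z'))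
      (by simp only [dot_smul, map_add, map_sub, hji, hjj]; ring) (x + T • z')
    rw [hp, ← h1]
    congr 1
    simp only [smul_sub, smul_add, smul_smul, hT, mul_comm Mi Mj, mul_assoc]
    abel
  have := hle p
  rw [ei, ei, ej, ej]
  linarith [h0i (x + T • w), h0j (x + T • z)]

/-- On every class of some lattice at most one piece varies. -/
theorem exists_one_varying' {F : Finset (Fin d → ℤ)} {A : Set (Fin d → ℤ)} (hA : Tiles A F)
    {V : Fin m → Fin d → ℤ} (hm : 0 < m) (hV0 : ∀ i, V i ≠ 0)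
    (hpw : ∀ i j, i ≠ j → Indep (V i) (V j))
    (hF : ∀ i j, i ≠ j → ∃ h ∈ F, ∀ g ∈ F, g ≠ h →
      dot (V i) g ≠ dot (V i) h ∨ dot (V j) g ≠ dot (V j) h)
    {L : ℤ} {P : (Fin d → ℤ) → ℝ} {u : Fin m → (Fin d → ℤ) → ℝ} (hL : 0 < L)
    (hP : ∀ i, ∃ z, dot (V i) z ≠ 0 ∧ L • z ∈ per P) (hu : ∀ i w, dot (V i) w = 0 → L • w ∈ per (u i))
    (hsum : ∀ x, ind A x = P x + ∑ i, u i x) (hB : ∀ i, Bdd (u i)) :
    ∃ K : ℤ, 0 < K ∧ L ∣ K ∧ ∀ x, ∃ i₀, ∀ i, i ≠ i₀ → ∀ w, u i (x + K • w) = u i x := by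
  classical
  have hrange : ∀ p : {p : Fin m × Fin m // p.1 ≠ p.2}, ∃ L' : ℤ, 0 < L' ∧
      ∀ x w w' z z', u p.1.1 (x + L' • w) - u p.1.1 (x + L' • w') +
        (u p.1.2 (x + L' • z) - u p.1.2 (x + L' • z')) ≤ 1 := fun p => by
    obtain ⟨h, hh, hlone⟩ := hF _ _ p.2
    exact pair_range' hA hpw hL hP hu hsum hB p.2 hh hlone
  choose L' hL' hL'r using hrange
  choose zP hzP hzP' using hP
  choose zl hzl hzl' using fun (i l : Fin m) (hl : l ≠ i) => (hpw l i hl).exists_perp
  let cand : Fin m → Option (Fin m) → Fin d → ℤ := fun i o =>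
    o.elim (zP i) fun l => if hl : l ≠ i then zl i l hl else zP i
  have hcand : ∀ i o, dot (V i) (cand i o) ≠ 0 := fun i o => by
    rcases o with - | l
    · exact hzP i
    · simp only [cand, Option.elim]
      split_ifs with hl
      · exact hzl' i l hl
      · exact hzP i
  choose τ hτ hsteps using fun i => exists_steps' (hV0 i) (cand i) (hcand i)
  set E : ℤ := L * ∏ p, L' p with hE
  have hE0 : 0 < E := mul_pos hL (prod_pos fun p _ => hL' p)
  have hsmul : ∀ {φ : (Fin d → ℤ) → ℝ} {a : Fin d → ℤ},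
      (∀ w, dot a w = 0 → L • w ∈ per φ) → ∀ w, dot a w = 0 → E • w ∈ per φ := by
    intro φ a h w hw
    rw [hE, mul_smul]
    exact h _ (by rw [dot_smul, hw, mul_zero])
  have hEP : ∀ (i : Fin m) (k : ℤ), E • k • zP i ∈ per P := fun i k => by
    rw [hE, mul_smul, smul_comm _ k, smul_comm L k, smul_comm L]
    exact zsmul_mem (zsmul_mem (hzP' i) _) _
  let Big : Fin m → (Fin d → ℤ) → Prop := fun i x =>
    ∃ w w', 1 / 2 < u i (x + E • w) - u i (x + E • w')
  have hone : ∀ x i j, i ≠ j → Big i x → Big j x → False := by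
    rintro x i j hij ⟨w, w', h1⟩ ⟨z, z', h2⟩
    obtain ⟨r, hr⟩ : L' ⟨(i, j), hij⟩ ∣ E := dvd_mul_of_dvd_right (dvd_prod_of_mem _ (mem_univ _)) _
    have := hL'r ⟨(i, j), hij⟩ x (r • w) (r • w') (r • z) (r • z')
    simp only [smul_smul, ← hr] at this
    linarith
  let e : Fin m → ℤ := fun i => dot (V i) (τ i)
  set D : ℤ := E * ∏ i, e i with hD
  have hD0 : 0 < D := mul_pos hE0 (prod_pos fun i _ => hτ i)
  have hline : ∀ i x (w : Fin d → ℤ),
      u i (x + (E * e i) • w) = u i (x + dot (V i) w • E • τ i) := by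
    intro i x w
    have key : ∀ A B : ℤ, x + (E * A) • w = x + B • E • τ i + E • (A • w - B • τ i) := by
      intro A B; rw [smul_sub, smul_smul, smul_smul, smul_smul, mul_comm B]; abel
    rw [key (e i) (dot (V i) w)]
    exact hsmul (hu i) _ (by rw [map_sub, dot_smul, dot_smul]; ring) _
  -- small pieces are periodic along their transversal
  have hsmall : ∀ i x, ∃ R : ℕ, 0 < R ∧
      (¬ Big i x → ∀ n, u i (x + (n + (R : ℤ)) • E • τ i) = u i (x + n • E • τ i)) := by
    intro i x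
    by_cases hbig : Big i x
    · exact ⟨1, one_pos, fun h => absurd hbig h⟩
    obtain ⟨steps, -, hcong, hkill⟩ := hsteps i E
    simp only [Big, not_exists, not_lt] at hbig
    set g : ℤ → ℝ := fun n => u i (x + n • E • τ i) with hg
    have hr : ∀ n k, g n - g k ≤ 1 / 2 := fun n k => by
      simp only [g, smul_comm _ E]
      exact hbig (n • τ i) (k • τ i)
    have hint : ∀ n, IsI ((fwdDiff 1)^[steps.length] g n) := fun n => by
      rw [← Dl_line (f := u i) (fun h hh => by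
        obtain ⟨w, hw, e⟩ := hcong h hh; rw [e]; exact hsmul (hu i) w hw) x n]
      have hall : ∀ y, Dl steps (ind A) y = Dl steps (u i) y := fun y => by
        rw [show ind A = fun z => P z + ∑ l, u l z from funext hsum, Dl_add,
          Dl_eq_zero (hkill none).choose_spec.1 (by
            obtain ⟨k, hk⟩ := (hkill none).choose_spec.2
            rw [hk]; exact hEP i k), zero_add]
        refine Dl_others i (fun l hl => ?_) y
        obtain ⟨h, hh, k, e⟩ := hkill (some l)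
        refine ⟨h, hh, e ▸ hsmul (hu l) _ ?_⟩
        simp only [cand, Option.elim, dif_pos hl, dot_smul, hzl i l hl, mul_zero]
      rw [← hall]
      refine Dl_int steps (fun y => ?_) _
      by_cases hy : y ∈ A
      · exact ⟨1, by simp [ind_of_mem hy]⟩
      · exact ⟨0, by simp [ind_of_notMem hy]⟩
    obtain ⟨R, hR, hper⟩ := per1_of_small_range hint hr
    refine ⟨R, hR, fun _ n => ?_⟩
    obtain ⟨z, hz⟩ := hper n
    have h1 := hr (n + R) n
    have h2 := hr n (n + R)
    have hz' : |(z : ℝ)| < 1 := by rw [← hz, abs_lt]; constructor <;> linarith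
    have : |z| < 1 := by exact_mod_cast hz'
    rw [Int.abs_lt_one_iff.1 this, Int.cast_zero, sub_eq_zero] at hz
    exact hz
  choose R hR hRper using hsmall
  set B : Finset (Fin d → ℤ) := Fintype.piFinset fun _ => Finset.Ico 0 D with hBdef
  set K : ℤ := D * ∏ i, ∏ r ∈ B, (R i r : ℤ) with hK
  refine ⟨K, mul_pos hD0 (prod_pos fun i _ => prod_pos fun r _ => by exact_mod_cast hR i r),
    dvd_mul_of_dvd_left (dvd_mul_of_dvd_left (dvd_mul_right _ _) _) _, fun x => ?_⟩
  obtain ⟨i₀, hi₀⟩ : ∃ i₀, ∀ i, i ≠ i₀ → ¬ Big i x := by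
    by_cases hb : ∃ i, Big i x
    · obtain ⟨i₀, h0⟩ := hb
      exact ⟨i₀, fun i hi h => hone x i i₀ hi h h0⟩
    · exact ⟨⟨0, hm⟩, fun i _ h => hb ⟨i, h⟩⟩
  refine ⟨i₀, fun i hi w => ?_⟩
  have hb := hi₀ i hi
  set r : Fin d → ℤ := fun k => x k % D with hr
  set Q : Fin d → ℤ := fun k => x k / D with hQ
  have hx : x = r + D • Q := mod_add_smul x D
  have hrB : r ∈ B := by simp [hBdef, r, Int.emod_nonneg _ hD0.ne', Int.emod_lt_of_pos _ hD0]
  have hbr : ¬ Big i r := fun ⟨a, a', h⟩ => hb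
    ⟨a - (∏ l, e l) • Q, a' - (∏ l, e l) • Q, by
      have : ∀ a, x + E • (a - (∏ l, e l) • Q) = r + E • a := fun a => by
        rw [hx, hD, smul_sub, smul_smul]; abel
      rwa [this, this]⟩
  obtain ⟨ce, hce⟩ : e i ∣ ∏ l, e l := dvd_prod_of_mem _ (mem_univ i)
  obtain ⟨cr, hcr⟩ : (R i r : ℤ) ∣ ∏ l, ∏ r ∈ B, (R l r : ℤ) :=
    (dvd_prod_of_mem (fun r => (R i r : ℤ)) hrB).trans
      (dvd_prod_of_mem (fun l => ∏ r ∈ B, (R l r : ℤ)) (mem_univ i))
  have hper : ∀ (k n : ℤ), u i (r + (n + k * (R i r : ℤ)) • E • τ i) = u i (r + n • E • τ i) := by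
    intro k
    induction k using Int.induction_on with
    | zero => intro n; simp
    | succ k ih => intro n; rw [show n + ((k : ℤ) + 1) * (R i r : ℤ) = n + k * (R i r : ℤ) + (R i r : ℤ) by ring, hRper i r hbr, ih]
    | pred k ih =>
      intro n
      rw [← hRper i r hbr, show n + (-(k : ℤ) - 1) * (R i r : ℤ) + (R i r : ℤ) = n + -(k : ℤ) * (R i r : ℤ) by ring, ih]
  have h1 : x + K • w = r + (E * e i) • (ce • (Q + (cr * (R i r : ℤ)) • w)) := by
    rw [hx, hK, hD, hcr, hce, smul_smul, smul_add, smul_smul, add_assoc]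
    ring_nf
  have h2 : x = r + (E * e i) • (ce • Q) := by
    rw [hx, hD, hce, smul_smul]; ring_nf
  rw [h1, hline, h2, hline]
  conv_lhs => rw [dot_smul, map_add, dot_smul, mul_add,
    show ce * (cr * (R i r : ℤ) * dot (V i) w) = ce * cr * dot (V i) w * (R i r : ℤ) by ring]
  rw [hper, dot_smul]

end Vale.Agent.P043.Adapted
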