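import Mathlib
import Vale.Agent.P043.Adapted.Main

/-!
Helper for P043: sums of a generic finite set and of finite sets on independent lines are adapted.
-/

namespace Vale.Agent.P043.Adapted

open Finset Vale.Agent.P043.Space

variable {d : ℕ}

/-- The image of a monomial in the algebra of the quotient by `W`. -/
noncomputable def cls (W : Submodule ℚ (Fin d → ℚ)) (z : Fin d → ℂ) (w : Fin d → ℤ) :
    AddMonoidAlgebra ℂ ((Fin d → ℚ) ⧸ W) :=
  AddMonoidAlgebra.single (Submodule.Quotient.mk (toQ w)) (mono z w)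

theorem toQ_add (a b : Fin d → ℤ) : toQ (a + b) = toQ a + toQ b := by funext k; simp [toQ]

theorem toQ_zero : toQ (0 : Fin d → ℤ) = 0 := by funext k; simp [toQ]

theorem cls_add {z : Fin d → ℂ} (hz : ∀ k, z k ≠ 0) (W : Submodule ℚ (Fin d → ℚ))
    (a b : Fin d → ℤ) : cls W z (a + b) = cls W z a * cls W z b := by
  rw [cls, cls, cls, AddMonoidAlgebra.single_mul_single, ← mono_add hz, toQ_add,
    Submodule.Quotient.mk_add]

theorem cls_zero (W : Submodule ℚ (Fin d → ℚ)) (z : Fin d → ℂ) : cls W z 0 = 1 := by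
  rw [cls, toQ_zero, Submodule.Quotient.mk_zero, mono_zero, AddMonoidAlgebra.one_def]

theorem cls_sum {z : Fin d → ℂ} (hz : ∀ k, z k ≠ 0) (W : Submodule ℚ (Fin d → ℚ)) {α : Type*}
    (s : Finset α) (f : α → Fin d → ℤ) : cls W z (∑ a ∈ s, f a) = ∏ a ∈ s, cls W z (f a) := by
  classical
  induction s using Finset.induction_on with
  | empty => simp [cls_zero]
  | @insert a s ha ih => rw [sum_insert ha, prod_insert ha, cls_add hz, ih]

open Classical in
/-- Coset sums are the coefficients. -/
theorem coeff_sum_cls (W : Submodule ℚ (Fin d → ℚ)) (z : Fin d → ℂ) (F : Finset (Fin d → ℤ))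
    (h : Fin d → ℤ) :
    (∑ g ∈ F, cls W z g).coeff (Submodule.Quotient.mk (toQ h)) =
      ∑ g ∈ F, if toQ (g - h) ∈ W then mono z g else 0 := by
  rw [AddMonoidAlgebra.coeff_sum, Finsupp.finsetSum_apply]
  refine sum_congr rfl fun g _ => ?_
  rw [cls, AddMonoidAlgebra.coeff_single, Finsupp.single_apply]
  simp only [Submodule.Quotient.eq, toQ_sub]

open Classical in
/-- The sum vanishes exactly when all coset sums do. -/
theorem sum_cls_eq_zero (W : Submodule ℚ (Fin d → ℚ)) (z : Fin d → ℂ) (F : Finset (Fin d → ℤ)) :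
    ∑ g ∈ F, cls W z g = 0 ↔
      ∀ h ∈ F, (∑ g ∈ F, if toQ (g - h) ∈ W then mono z g else 0) = 0 := by
  constructor
  · intro e h _
    rw [← coeff_sum_cls, e]
    rfl
  · intro e
    refine AddMonoidAlgebra.ext ?_
    ext q
    by_cases hq : ∃ h ∈ F, Submodule.Quotient.mk (toQ h) = q
    · obtain ⟨h, hh, rfl⟩ := hq
      rw [coeff_sum_cls, e h hh]
      rfl
    · push Not at hq
      rw [AddMonoidAlgebra.coeff_sum, Finsupp.finsetSum_apply]
      refine (sum_eq_zero fun g hg => ?_).trans rfl
      rw [cls, AddMonoidAlgebra.coeff_single, Finsupp.single_apply, if_neg (hq g hg)]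

open Classical in
/-- A set in which every family of parallel hyperplanes has a lone point, plus arbitrary finite
sets on independent lines, is adapted. -/
theorem adapted_sum {B : Frame d} {G : Finset (Fin d → ℤ)}
    (hlone : ∀ v : Fin d → ℤ, v ≠ 0 →
      ∃ h ∈ G, ∀ g ∈ G, g ≠ h → ∑ k, v k * g k ≠ ∑ k, v k * h k)
    (C : Fin d → Finset ℤ) (hC : ∀ i, (C i).Nonempty)
    (hinj : Set.InjOn (fun p : (Fin d → ℤ) × (Fin d → ℤ) => p.1 + ∑ i, p.2 i • B.vec i)
      ↑(G ×ˢ Fintype.piFinset C)) :
    AdaptedTo B ((G ×ˢ Fintype.piFinset C).image fun p => p.1 + ∑ i, p.2 i • B.vec i) := by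
  intro W z hfin hall
  have hz : ∀ k, z k ≠ 0 := fun k e => by
    obtain ⟨n, hn, h1⟩ := hfin k
    simp [e, hn.ne'] at h1
  set F := (G ×ˢ Fintype.piFinset C).image fun p => p.1 + ∑ i, p.2 i • B.vec i with hF
  have hfac : ∀ W' : Submodule ℚ (Fin d → ℚ), ∑ g ∈ F, cls W' z g =
      (∑ g ∈ G, cls W' z g) * ∏ i, ∑ c ∈ C i, cls W' z (c • B.vec i) := by
    intro W'
    rw [hF, sum_image hinj, sum_product, prod_univ_sum, sum_mul_sum]
    refine sum_congr rfl fun g _ => sum_congr rfl fun p _ => ?_
    rw [cls_add hz, cls_sum hz]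
  have hzero := (sum_cls_eq_zero W z F).2 hall
  rw [hfac, mul_eq_zero] at hzero
  rcases hzero with hzero | hzero
  · -- the generic factor vanishes only on the whole space
    have hW : W = ⊤ := by
      by_contra hne
      obtain ⟨w, -, hw⟩ := SetLike.exists_of_lt (lt_top_iff_ne_top.2 hne)
      obtain ⟨f, hfw, hf⟩ := Submodule.exists_dual_map_eq_bot_of_notMem hw inferInstance
      set c : Fin d → ℚ := fun k => f (Pi.single k 1) with hc
      have hfc : ∀ u : Fin d → ℚ, f u = ∑ k, c k * u k := fun u => by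
        conv_lhs => rw [pi_eq_sum_univ' u]
        simp [hc, map_sum, map_smul, mul_comm]
      set D : ℕ := ∏ k, (c k).den with hD
      have hex : ∀ k, ∃ n : ℤ, (n : ℚ) = D * c k := fun k => by
        obtain ⟨e, he⟩ : (c k).den ∣ D := Finset.dvd_prod_of_mem _ (mem_univ k)
        refine ⟨e * (c k).num, ?_⟩
        rw [he]
        push_cast
        rw [← Rat.mul_den_eq_num (c k)]
        ring
      choose v hv using hex
      have hD0 : (D : ℚ) ≠ 0 := by simp [hD, Finset.prod_ne_zero_iff]
      have hdot : ∀ u : Fin d → ℤ, ((∑ k, v k * u k : ℤ) : ℚ) = D * f (toQ u) := fun u => by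
        rw [hfc, mul_sum]
        push_cast
        simp [hv, toQ, mul_assoc]
      have hv0 : v ≠ 0 := fun e => hfw (by
        have hc0 : ∀ k, c k = 0 := fun k => by
          have := hv k
          rw [e, Pi.zero_apply, Int.cast_zero] at this
          exact (mul_eq_zero.1 this.symm).resolve_left hD0
        rw [hfc]; simp [hc0])
      obtain ⟨h, hh, halone⟩ := hlone v hv0
      have h0 := coeff_sum_cls W z G h
      rw [hzero, sum_eq_single h, if_pos (by rw [sub_self, toQ_zero]; exact zero_mem _)] at h0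
      · exact mono_ne_zero hz h (by simpa using h0.symm)
      · intro g hg hgh
        rw [if_neg fun e => halone g hg hgh ?_]
        have h1 : f (toQ (g - h)) = 0 := by
          have : f (toQ (g - h)) ∈ W.map f := Submodule.mem_map_of_mem e
          rwa [hf, Submodule.mem_bot] at this
        have h2 := hdot (g - h)
        rw [h1, mul_zero] at h2
        have h3 : (∑ k, v k * (g - h) k) = 0 := by exact_mod_cast h2
        simpa [mul_sub, sub_eq_zero] using h3
      · exact fun h' => absurd hh h'
    refine ⟨univ, fun i _ => hW ▸ Submodule.mem_top, fun h hh => ?_⟩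
    subst hW
    have htop : Submodule.span ℚ ((fun i => toQ (B.vec i)) '' ((univ : Finset (Fin d)) : Set (Fin d))) = ⊤ := by
      refine eq_top_iff.2 fun u _ => ?_
      rw [pi_eq_sum_univ' u]
      refine sum_mem fun k _ => Submodule.smul_mem _ _ ?_
      have h1 := congrArg toQ (B.expand (Pi.single k 1))
      rw [toQ_smul] at h1
      have e : (Pi.single k 1 : Fin d → ℚ) = toQ (Pi.single k 1) := by
        funext l
        simp [toQ, Pi.single_apply]
      rw [e, ← Submodule.smul_mem_iff _ (s := (B.den : ℚ))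
        (by exact_mod_cast B.den_pos.ne'), h1]
      have h2 : ∀ s : Finset (Fin d), toQ (∑ i ∈ s, B.form i (Pi.single k 1) • B.vec i) ∈
          Submodule.span ℚ ((fun i => toQ (B.vec i)) '' ((univ : Finset (Fin d)) : Set (Fin d))) := by
        intro s
        induction s using Finset.induction_on with
        | empty => rw [sum_empty, toQ_zero]; exact zero_mem _
        | @insert a s ha ihs =>
          rw [sum_insert ha, toQ_add, toQ_smul]
          exact add_mem (Submodule.smul_mem _ _ (Submodule.subset_span ⟨a, by simp, rfl⟩)) ihs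
      exact h2 univ
    rw [htop]
    exact hall h hh
  · obtain ⟨i, -, hi⟩ := prod_eq_zero_iff.1 hzero
    have hmem : toQ (B.vec i) ∈ W := by
      by_contra hout
      obtain ⟨c, hc⟩ := hC i
      have h0 : ∀ c' ∈ C i, c' ≠ c →
          (Submodule.Quotient.mk (toQ (c' • B.vec i)) : (Fin d → ℚ) ⧸ W) ≠
            Submodule.Quotient.mk (toQ (c • B.vec i)) := fun c' _ hne e => by
        rw [Submodule.Quotient.eq, toQ_smul, toQ_smul, ← sub_smul, Submodule.smul_mem_iff] at e
        · exact hout e
        · exact_mod_cast sub_ne_zero.2 hne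
      have h1 : (∑ c' ∈ C i, cls W z (c' • B.vec i)).coeff
          (Submodule.Quotient.mk (toQ (c • B.vec i))) = mono z (c • B.vec i) := by
        rw [AddMonoidAlgebra.coeff_sum, Finsupp.finsetSum_apply, sum_eq_single c]
        · rw [cls, AddMonoidAlgebra.coeff_single, Finsupp.single_eq_same]
        · intro c' hc' hne
          rw [cls, AddMonoidAlgebra.coeff_single, Finsupp.single_apply, if_neg (h0 c' hc' hne)]
        · exact fun h' => absurd hc h'
      rw [hi] at h1
      exact mono_ne_zero hz _ h1.symm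
    refine ⟨{i}, fun j hj => ?_, fun h hh => ?_⟩
    · rw [mem_singleton] at hj
      rwa [hj]
    set U := Submodule.span ℚ ((fun i => toQ (B.vec i)) '' (({i} : Finset (Fin d)) : Set (Fin d)))
    refine (sum_cls_eq_zero U z F).1 ?_ h hh
    rw [hfac, mul_eq_zero]
    refine Or.inr (prod_eq_zero (mem_univ i) ?_)
    have hU : toQ (B.vec i) ∈ U := Submodule.subset_span ⟨i, by simp, rfl⟩
    have hclass : ∀ (V : Submodule ℚ (Fin d → ℚ)), toQ (B.vec i) ∈ V → ∀ c : ℤ,
        cls V z (c • B.vec i) = AddMonoidAlgebra.single 0 (mono z (c • B.vec i)) := fun V hV c => by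
      rw [cls, (Submodule.Quotient.mk_eq_zero V).2 (by rw [toQ_smul]; exact V.smul_mem _ hV)]
    have h1 : ∑ c ∈ C i, mono z (c • B.vec i) = 0 := by
      rw [sum_congr rfl fun c _ => hclass W hmem c] at hi
      have := congrArg (fun p => p.coeff 0) hi
      simpa [AddMonoidAlgebra.coeff_sum, Finsupp.finsetSum_apply, AddMonoidAlgebra.coeff_single] using this
    rw [sum_congr rfl fun c _ => hclass U hU c]
    refine AddMonoidAlgebra.ext ?_
    ext q
    rw [AddMonoidAlgebra.coeff_sum, Finsupp.finsetSum_apply]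
    simp only [AddMonoidAlgebra.coeff_single, Finsupp.single_apply, AddMonoidAlgebra.coeff_zero,
      Finsupp.coe_zero, Pi.zero_apply]
    split_ifs with hq
    · exact h1
    · simp

end Vale.Agent.P043.Adapted
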