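import Mathlib
import Vale.Agent.P043.Adapted.Exclusive

/-!
Helper for P043: a tile with one exceptional subspace has a periodic tiling.
-/

namespace Vale.Agent.P043.Adapted

open Finset Vale.Agent.P043.Space

variable {d : ℕ}

/-- A zero-one function which is a constant plus functions of two independent choices has one of
them constant. -/
theorem one_constant {α β : Type*} {f : α → ℝ} {g : β → ℝ} {C : ℝ}
    (h : ∀ a b, C + f a + g b = 0 ∨ C + f a + g b = 1) {a a' : α} {b b' : β} (ha : f a ≠ f a')
    (hb : g b ≠ g b') : False := by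
  rcases h a b with p | p <;> rcases h a' b with q | q <;> rcases h a b' with r | r <;>
    rcases h a' b' with s | s <;>
      first
      | exact ha (by linarith)
      | exact hb (by linarith)
      | linarith

/-- One exceptional subspace: a tile has a periodic tiling. -/
theorem periodic_of_singleBad {B : Frame d} {S : Finset (Fin d)} {F : Finset (Fin d → ℤ)}
    (hF : SingleBad B S F) {A : Set (Fin d → ℤ)} (hA : Tiles A F) :
    ∃ (A' : Set (Fin d → ℤ)) (P : ℤ), 0 < P ∧ Tiles A' F ∧
      ∀ y w, (y + P • w ∈ A' ↔ y ∈ A') := by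
  classical
  obtain ⟨m, V, L, Φ, u, hL, hV0, hpw, hVU, hG, hU, hu, hsum, hB⟩ := exists_split hF hA
  rcases Nat.eq_zero_or_pos m with rfl | hm
  · refine ⟨{y | rep B L y ∈ A}, L * B.den, mul_pos hL B.den_pos, fun x => ?_, fun y w => ?_⟩
    · have h1 : ∑ g ∈ F, ind A (rep B L (x - g)) = 1 := by
        have h2 := hG L hL dvd_rfl x
        have h3 : ∑ g ∈ F, ind A (x - g) = 1 := by simpa using (eqn_ind hA).2 0 x
        have e : ∀ y, ind A y = Φ y := fun y => by rw [hsum]; simp
        simp only [e] at h3 ⊢
        rw [h2, h3]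
      obtain ⟨f, hf, hfA⟩ : ∃ f ∈ F, rep B L (x - f) ∈ A := by
        by_contra hno
        push Not at hno
        rw [sum_eq_zero fun f hf => ind_of_notMem (hno f hf)] at h1
        exact zero_ne_one h1
      refine ⟨f, ⟨hf, hfA⟩, ?_⟩
      rintro g ⟨hg, hgA⟩
      by_contra hne
      have hsub : ({g, f} : Finset (Fin d → ℤ)) ⊆ F := by simp [insert_subset_iff, hg, hf]
      have := sum_le_sum_of_subset_of_nonneg (f := fun g => ind A (rep B L (x - g))) hsub
        fun g _ _ => (ind_mem_Icc _ _).1
      rw [sum_pair hne, h1, ind_of_mem (show rep B L (x - g) ∈ A from hgA), ind_of_mem hfA] at this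
      norm_num at this
    · show rep B L (y + (L * B.den) • w) ∈ A ↔ rep B L y ∈ A
      rw [rep_periodic B hL]
  choose k hkS hk using hVU
  have hPz : ∀ i, ∃ z, dot (V i) z ≠ 0 ∧ L • z ∈ per Φ := fun i =>
    ⟨B.vec (k i), hk i, hU _ (hkS i)⟩
  have hlone : ∀ i j, i ≠ j → ∃ h ∈ F, ∀ g ∈ F, g ≠ h →
      dot (V i) g ≠ dot (V i) h ∨ dot (V j) g ≠ dot (V j) h := fun i j hij =>
    hF.1 (V i) (V j) (hpw i j hij) ⟨_, mem_image_of_mem _ (hkS i), Or.inl (hk i)⟩
  obtain ⟨K, hK0, ⟨rK, hrK⟩, hone⟩ :=
    exists_one_varying' hA hm hV0 hpw hlone hL hPz hu hsum hB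
  set Q : ℤ := ∏ i, |dot (V i) (B.vec (k i))| with hQ
  set R : ℤ := K * Q with hR
  have hQ0 : 0 < Q := prod_pos fun i _ => abs_pos.2 (hk i)
  have hR0 : 0 < R := mul_pos hK0 hQ0
  let res : (Fin d → ℤ) → Fin d → ℤ := fun y l => y l % R
  have hres : ∀ y w, res (y + R • w) = res y := fun y w => by funext l; simp [res]
  have hdec : ∀ y, ∃ w, y = res y + R • w := fun y => ⟨fun l => y l / R, mod_add_smul y R⟩
  let Var : Fin m → (Fin d → ℤ) → Prop := fun i r => ∃ w, u i (r + R • w) ≠ u i r
  choose i₀ hi₀ using hone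
  have hconst : ∀ i r, ¬ Var i r → ∀ w, u i (r + R • w) = u i r := fun i r h w => by
    by_contra e; exact h ⟨w, e⟩
  have hother : ∀ i r, Var i r → ∀ l, l ≠ i → ∀ w, u l (r + R • w) = u l r := by
    intro i r ⟨w, hw⟩ l hl w'
    have hi : i = i₀ r := by
      by_contra e
      exact hw (by rw [hR, mul_smul]; exact hi₀ r i e _)
    rw [hR, mul_smul]
    exact hi₀ r l (hi ▸ hl) _
  -- on a class where a hyperplane piece varies, the first part is constant
  have hΦ : ∀ i r, Var i r → ∀ w, Φ (r + R • w) = Φ r := by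
    intro i r hv w
    obtain ⟨c, hc⟩ := hv
    by_contra hw
    obtain ⟨e, he⟩ : dot (V i) (B.vec (k i)) ∣ Q :=
      (self_dvd_abs _).trans (dvd_prod_of_mem _ (mem_univ i))
    have hmix : ∀ w c : Fin d → ℤ, ∃ q : Fin d → ℤ, Φ (r + q) = Φ (r + R • w) ∧
        u i (r + q) = u i (r + R • c) ∧
          ∀ l, l ≠ i → u l (r + q) = u l r := by
      intro w c
      refine ⟨R • w + (dot (V i) (c - w) * e) • K • B.vec (k i), ?_, ?_, ?_⟩
      · rw [← add_assoc]
        refine zsmul_mem (K := per Φ) ?_ (dot (V i) (c - w) * e) _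
        rw [hrK, mul_comm, mul_smul]
        exact zsmul_mem (hU _ (hkS i)) _
      · have h1 : ∀ y, dot (V i) y = 0 → K • y ∈ per (u i) := fun y hy => by
          rw [hrK, mul_comm, mul_smul]; exact zsmul_mem (hu i y hy) _
        have h2 := h1 (Q • (w - c) + (dot (V i) (c - w) * e) • B.vec (k i))
          (by rw [map_add, dot_smul, dot_smul, map_sub, map_sub, he]; ring) (r + R • c)
        rw [← h2]
        congr 1
        simp only [hR, smul_add, smul_sub, smul_smul]
        rw [mul_comm K (dot (V i) (c - w) * e)]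
        abel
      · intro l hl
        have hne : i = i₀ r := by
          by_contra e'
          exact hc (by rw [hR, mul_smul]; exact hi₀ r i e' _)
        rw [show R • w + (dot (V i) (c - w) * e) • K • B.vec (k i) =
          K • (Q • w + (dot (V i) (c - w) * e) • B.vec (k i)) by
            simp only [hR, smul_add, smul_smul]; rw [mul_comm K (dot (V i) (c - w) * e)]]
        exact hi₀ r l (hne ▸ hl) _
    set C : ℝ := ∑ l ∈ univ.erase i, u l r with hC
    have hval : ∀ a b : Fin d → ℤ, C + Φ (r + R • a) + u i (r + R • b) = 0 ∨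
        C + Φ (r + R • a) + u i (r + R • b) = 1 := by
      intro a b
      obtain ⟨q, h1, h2, h3⟩ := hmix a b
      have h4 := hsum (r + q)
      rw [← add_sum_erase _ _ (mem_univ i), h1, h2,
        sum_congr rfl fun l hl => h3 l (mem_erase.1 hl).1, ← hC] at h4
      by_cases hy : r + q ∈ A
      · right; rw [ind_of_mem hy] at h4; linarith
      · left; rw [ind_of_notMem hy] at h4; linarith
    refine one_constant hval (a := w) (a' := (0 : Fin d → ℤ)) (b := c) (b' := (0 : Fin d → ℤ)) ?_ ?_
    · simpa using hw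
    · simpa using hc
  let cls : (Fin d → ℤ) → Option (Fin m) := fun r =>
    if h : ∃ i, Var i r then some h.choose else none
  let part : Option (Fin m) → Set (Fin d → ℤ) := fun o => {y | y ∈ A ∧ cls (res y) = o}
  have hmemA : ∀ {y z : Fin d → ℤ}, ind A y = ind A z → (y ∈ A ↔ z ∈ A) := fun {y z} e => by
    by_cases hy : y ∈ A <;> by_cases hz : z ∈ A <;> simp [ind, hy, hz] at e ⊢
  have hsome : ∀ i y w, dot (V i) w = 0 → (y + R • w ∈ part (some i) ↔ y ∈ part (some i)) := by
    intro i y w hw
    simp only [part, Set.mem_ofPred_eq, hres]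
    refine and_congr_left fun hcl => hmemA ?_
    have hvar : Var i (res y) := by
      simp only [cls] at hcl
      split_ifs at hcl with h
      · exact Option.some_injective _ hcl ▸ h.choose_spec
    obtain ⟨v, hv⟩ := hdec y
    rw [hsum, hsum]
    congr 1
    · rw [hv, add_assoc, ← smul_add, hΦ i _ hvar, hΦ i _ hvar]
    · refine sum_congr rfl fun l _ => ?_
      rcases eq_or_ne l i with rfl | hl
      · rw [hR, hrK, mul_assoc, mul_smul]
        exact hu l _ (by rw [dot_smul, hw, mul_zero]) y
      · rw [hv, add_assoc, ← smul_add, hother i _ hvar l hl, hother i _ hvar l hl]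
  have hnone : ∀ y, cls (res y) = none → ∀ w, ∀ l, u l (y + R • w) = u l y := by
    intro y hcl w l
    simp only [cls] at hcl
    split_ifs at hcl with h
    obtain ⟨v, hv⟩ := hdec y
    rw [hv, add_assoc, ← smul_add, hconst l _ (fun e => h ⟨l, e⟩), hconst l _ (fun e => h ⟨l, e⟩)]
  have hsplit : ∀ y, ∑ o, ind (part o) y = ind A y := fun y => by
    rw [sum_eq_single (cls (res y))]
    · exact ind_congr ⟨fun hy => hy.1, fun hy => ⟨hy, rfl⟩⟩
    · exact fun o _ ho => ind_of_notMem fun hy => ho hy.2.symm
    · simp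
  have htile : ∀ x, ∑ o, cnt (part o) F x = 1 := fun x => by
    have := (eqn_ind hA).2 0 x
    simp only [cnt]
    rw [sum_comm, sum_congr rfl fun f _ => hsplit (x - f)]
    simpa using this
  have hinv : ∀ l w, dot (V l) w = 0 → R • w ∈ per (cnt (part (some l)) F) := fun l w hw =>
    cnt_inv fun y => hsome l y w hw
  have hper : ∀ i, ∃ M : ℤ, 0 < M ∧ ∀ w, M • w ∈ per (cnt (part (some i)) F) := by
    intro i
    choose zl hzl hzl' using fun (l : Fin m) (hl : l ≠ i) => Indep.exists_perp (hpw l i hl)
    let cand : Option (Fin m) → Fin d → ℤ := fun o =>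
      o.elim (B.vec (k i)) fun l => if hl : l ≠ i then zl l hl else B.vec (k i)
    have hcand : ∀ o, dot (V i) (cand o) ≠ 0 := fun o => by
      rcases o with - | l
      · exact hk i
      · simp only [cand, Option.elim]
        split_ifs with hl
        · exact hzl' l hl
        · exact hk i
    obtain ⟨τ, hτ, hst⟩ := exists_steps' (hV0 i) cand hcand
    obtain ⟨steps, hτs, hcong, hkill⟩ := hst R
    refine ⟨R * dot (V i) τ, mul_pos hR0 hτ, lattice_mem_per (hinv i) fun x => ?_⟩
    have hl : ∀ h ∈ steps, h - R • τ ∈ per (cnt (part (some i)) F) := fun h hh => by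
      obtain ⟨w, hw, e⟩ := hcong h hh; rw [e]; exact hinv i w hw
    have hzero : ∀ y, Dl steps (cnt (part (some i)) F) y = 0 := fun y => by
      rw [← Dl_others (f := fun o => cnt (part o) F) (some i) (fun o ho => ?_) y,
        show (fun z => ∑ o, cnt (part o) F z) = fun _ => 1 from funext htile]
      · exact Dl_eq_zero hτs (fun _ => rfl) y
      · rcases o with - | l
        · obtain ⟨h, hh, j, e⟩ := hkill none
          refine ⟨h, hh, cnt_inv fun y => ?_⟩
          rw [e]
          simp only [part, Set.mem_ofPred_eq, hres]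
          refine and_congr_left fun hcl => hmemA ?_
          rw [hsum, hsum, sum_congr rfl fun l _ => hnone y hcl (j • cand none) l]
          congr 1
          have hmem : R • j • cand none ∈ per Φ := by
            rw [smul_comm]
            refine zsmul_mem ?_ j
            rw [hR, hrK, mul_assoc, mul_comm, mul_smul]
            exact zsmul_mem (hU _ (hkS i)) _
          exact hmem y
        · obtain ⟨h, hh, j, e⟩ := hkill (some l)
          have hli : l ≠ i := fun e' => ho (by rw [e'])
          refine ⟨h, hh, e ▸ hinv l _ ?_⟩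
          simp only [cand, Option.elim, dif_pos hli, dot_smul, hzl l hli, mul_zero]
    obtain ⟨n, hn⟩ : ∃ n, steps.length = n + 1 :=
      ⟨steps.length - 1, by have := List.length_pos_of_mem hτs; omega⟩
    have hbd : ∀ j : ℤ, |cnt (part (some i)) F (x + j • R • τ)| ≤ F.card := fun j => by
      have h1 : ∀ f ∈ F, |ind (part (some i)) (x + j • R • τ - f)| ≤ (1 : ℝ) := fun f _ => by
        obtain ⟨h1, h2⟩ := ind_mem_Icc (part (some i)) (x + j • R • τ - f)
        rw [abs_le]; exact ⟨by linarith, h2⟩
      refine (abs_sum_le_sum_abs _ _).trans ((sum_le_sum h1).trans ?_)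
      simp
    have := Rows.const_of_bounded n (fun j : ℤ => cnt (part (some i)) F (x + j • R • τ)) F.card 0 hbd
      (fun j _ => by rw [← hn, ← Dl_line hl x j]; exact hzero _) 0 le_rfl
    simpa using this
  choose M hM hMper using hper
  choose S' e he hev hcnt using fun i =>
    exists_periodic_piece (hV0 i) hR0 (S := part (some i)) (hsome i) F (hM i) (hMper i)
  -- the class without varying hyperplane pieces is copied from one box
  let T : Set (Fin d → ℤ) := {y | cls (res y) = none ∧ rep B R y ∈ A}
  have hresrep : ∀ y, res (rep B R y) = res y := fun y => by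
    obtain ⟨w, hw⟩ := rep_sub_self B R y
    rw [hw, hres]
  have hT : ∀ y, ind T y - ind (part none) y = Φ (rep B R y) - Φ y := by
    intro y
    obtain ⟨w, hw⟩ := rep_sub_self B R y
    by_cases hcl : cls (res y) = none
    · have h1 : ind T y = ind A (rep B R y) := ind_congr ⟨fun h => h.2, fun h => ⟨hcl, h⟩⟩
      have h2 : ind (part none) y = ind A y := ind_congr ⟨fun h => h.1, fun h => ⟨h, hcl⟩⟩
      rw [h1, h2, hsum, hsum, hw, sum_congr rfl fun l _ => hnone y hcl w l]
      ring
    · rw [ind_of_notMem fun h => hcl h.1, ind_of_notMem fun h => hcl h.2, sub_zero]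
      obtain ⟨i, hi⟩ := Option.ne_none_iff_exists'.1 hcl
      have hvar : Var i (res y) := by
        simp only [cls] at hi
        split_ifs at hi with h
        · exact Option.some_injective _ hi ▸ h.choose_spec
      obtain ⟨v, hv⟩ := hdec y
      rw [hw, hv, add_assoc, ← smul_add, hΦ i _ hvar, hΦ i _ hvar, sub_self]
  have hTc : ∀ x, cnt T F x = cnt (part none) F x := fun x => by
    refine sub_eq_zero.1 ?_
    rw [cnt, cnt, ← sum_sub_distrib, sum_congr rfl fun f _ => hT (x - f), sum_sub_distrib,
      hG R hR0 (by rw [hR, hrK, mul_assoc]; exact dvd_mul_right _ _) x, sub_self]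
  have hTper : ∀ y w, (y + (R * B.den) • w ∈ T ↔ y ∈ T) := fun y w => by
    show cls (res (y + (R * B.den) • w)) = none ∧ rep B R (y + (R * B.den) • w) ∈ A ↔
      cls (res y) = none ∧ rep B R y ∈ A
    rw [rep_periodic B hR0]
    rw [mul_smul, hres]
  let parts : Option (Fin m) → Set (Fin d → ℤ) := fun o => o.elim T S'
  have hcnts : ∀ x, ∑ o, cnt (parts o) F x = 1 := fun x => by
    rw [← htile x]
    refine sum_congr rfl fun o _ => ?_
    rcases o with - | i
    · exact hTc x
    · exact hcnt i x
  refine ⟨{y | ∃ o, y ∈ parts o}, R * B.den * ∏ i, e i,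
    mul_pos (mul_pos hR0 B.den_pos) (Finset.prod_pos fun i _ => he i), fun x => ?_, fun y w => ?_⟩
  · have hx : ∑ p ∈ (univ : Finset (Option (Fin m))) ×ˢ F, ind (parts p.1) (x - p.2) = 1 := by
      rw [sum_product, ← hcnts x]
      exact sum_congr rfl fun o _ => rfl
    obtain ⟨p, hp, hpS⟩ : ∃ p ∈ (univ : Finset (Option (Fin m))) ×ˢ F, x - p.2 ∈ parts p.1 := by
      by_contra hno
      rw [sum_eq_zero fun p hp => ind_of_notMem fun hm => hno ⟨p, hp, hm⟩] at hx
      exact zero_ne_one hx
    refine ⟨p.2, ⟨(mem_product.1 hp).2, p.1, hpS⟩, ?_⟩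
    rintro f ⟨hf, o, ho⟩
    by_contra hne
    have hsub : ({(o, f), p} : Finset (Option (Fin m) × (Fin d → ℤ))) ⊆ univ ×ˢ F := by
      simp [insert_subset_iff, hf, (mem_product.1 hp).2]
    have := sum_le_sum_of_subset_of_nonneg (f := fun p => ind (parts p.1) (x - p.2)) hsub
      fun p _ _ => (ind_mem_Icc _ _).1
    rw [sum_pair (fun h => hne (congrArg Prod.snd h)), hx, ind_of_mem ho, ind_of_mem hpS] at this
    norm_num at this
  · refine exists_congr fun o => ?_
    rcases o with - | i
    · rw [mul_smul]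
      exact hTper y _
    · obtain ⟨j, hj⟩ : e i ∣ ∏ i, e i := dvd_prod_of_mem _ (mem_univ i)
      rw [hj, mul_comm, mul_assoc, mul_smul]
      exact hev i y _

end Vale.Agent.P043.Adapted
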