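import Mathlib
import Vale.Agent.P043.Adapted.SingleMain
import Vale.Agent.P043.Adapted.Products

/-!
Helper for P043: a set thickened along one line, lone in the other directions, has one exceptional
subspace only.
-/

namespace Vale.Agent.P043.Adapted

open Finset Vale.Agent.P043.Space

variable {d : ℕ}

open Classical in
/-- Translates of one finite set on parallel lines, with a lone line in every hyperplane direction
containing them. -/
theorem singleBad_line {B : Frame d} (i : Fin d) {G : Finset (Fin d → ℤ)} (C : Finset ℤ)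
    (hinj : Set.InjOn (fun p : (Fin d → ℤ) × ℤ => p.1 + p.2 • B.vec i) ↑(G ×ˢ C))
    (hlines : ∀ a c : Fin d → ℤ, LinearIndependent ℚ ![fun k => (a k : ℚ), fun k => (c k : ℚ)] →
      (∑ k, a k * B.vec i k ≠ 0 ∨ ∑ k, c k * B.vec i k ≠ 0) →
      ∃ h ∈ (G ×ˢ C).image (fun p => p.1 + p.2 • B.vec i),
        ∀ g ∈ (G ×ˢ C).image (fun p => p.1 + p.2 • B.vec i), g ≠ h →
        ∑ k, a k * g k ≠ ∑ k, a k * h k ∨ ∑ k, c k * g k ≠ ∑ k, c k * h k)
    (hplanes : ∀ a : Fin d → ℤ, a ≠ 0 → ∑ k, a k * B.vec i k = 0 →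
      ∃ h ∈ G, ∀ g ∈ G, g ≠ h → ∑ k, a k * g k ≠ ∑ k, a k * h k) :
    SingleBad B {i} ((G ×ˢ C).image fun p => p.1 + p.2 • B.vec i) := by
  refine ⟨fun a c h1 h2 => hlines a c h1 ?_, fun W z hfin hU hW hall => ?_⟩
  · obtain ⟨t, ht, h⟩ := h2
    simp only [image_singleton, mem_singleton] at ht
    rwa [ht] at h
  have hz : ∀ k, z k ≠ 0 := fun k e => by
    obtain ⟨n, hn, h1⟩ := hfin k
    simp [e, hn.ne'] at h1
  have hmem : toQ (B.vec i) ∈ W := hU i (mem_singleton_self i)
  set F := (G ×ˢ C).image fun p => p.1 + p.2 • B.vec i with hF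
  have hfac : ∀ W' : Submodule ℚ (Fin d → ℚ), toQ (B.vec i) ∈ W' → ∑ g ∈ F, cls W' z g =
      (∑ g ∈ G, cls W' z g) * AddMonoidAlgebra.single 0 (∑ c ∈ C, mono z (c • B.vec i)) := by
    intro W' hW'
    have hs : AddMonoidAlgebra.single (0 : (Fin d → ℚ) ⧸ W') (∑ c ∈ C, mono z (c • B.vec i)) =
        ∑ c ∈ C, cls W' z (c • B.vec i) := by
      rw [show (AddMonoidAlgebra.single (0 : (Fin d → ℚ) ⧸ W') (∑ c ∈ C, mono z (c • B.vec i))) =
        ∑ c ∈ C, AddMonoidAlgebra.single 0 (mono z (c • B.vec i)) from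
          map_sum (AddMonoidAlgebra.singleAddHom (R := ℂ) (0 : (Fin d → ℚ) ⧸ W')) _ _]
      refine sum_congr rfl fun c _ => ?_
      rw [cls, (Submodule.Quotient.mk_eq_zero W').2 (by rw [toQ_smul]; exact W'.smul_mem _ hW')]
    rw [hF, sum_image hinj, sum_product, hs, sum_mul_sum]
    exact sum_congr rfl fun g _ => sum_congr rfl fun c _ => cls_add hz _ _ _
  have hzero := (sum_cls_eq_zero W z F).2 hall
  rw [hfac W hmem, mul_eq_zero] at hzero
  have hC : ∑ c ∈ C, mono z (c • B.vec i) = 0 := by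
    rcases hzero with h0 | h0
    · exfalso
      obtain ⟨w, -, hw⟩ := SetLike.exists_of_lt (lt_top_iff_ne_top.2 hW)
      obtain ⟨a, hap, -, ha⟩ := exists_normal' hw
      obtain ⟨h, hh, halone⟩ := hplanes a ha (hap _ hmem)
      have h1 := coeff_sum_cls W z G h
      rw [h0, sum_eq_single h, if_pos (by rw [sub_self, toQ_zero]; exact zero_mem _)] at h1
      · exact mono_ne_zero hz h (by simpa using h1.symm)
      · intro g hg hgh
        rw [if_neg fun e => halone g hg hgh ?_]
        have h2 := hap _ e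
        rwa [map_sub, sub_eq_zero] at h2
      · exact fun h' => absurd hh h'
    · simpa using congrArg (fun p => p.coeff 0) h0
  intro h hh
  refine (sum_cls_eq_zero _ z F).1 ?_ h hh
  have hi : toQ (B.vec i) ∈ Submodule.span ℚ
      ((fun j => toQ (B.vec j)) '' (({i} : Finset (Fin d)) : Set (Fin d))) :=
    Submodule.subset_span ⟨i, by simp, rfl⟩
  rw [hfac _ hi, hC, AddMonoidAlgebra.single_zero, mul_zero]

end Vale.Agent.P043.Adapted
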