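import Mathlib

/-!
Helper for P043: the notions used in the statement of `AdaptedDirections`.
-/

namespace Vale.Agent.P043.Adapted

open Finset

/-- Every tiling by `F` can be replaced by one invariant under `P ℤ^d` for some `P > 0`. -/
def TilesPeriodically {d : ℕ} (F : Finset (Fin d → ℤ)) : Prop :=
  ∀ A : Set (Fin d → ℤ), (∀ x : Fin d → ℤ, ∃! f, f ∈ F ∧ x - f ∈ A) →
    ∃ (A' : Set (Fin d → ℤ)) (P : ℤ), 0 < P ∧
      (∀ x : Fin d → ℤ, ∃! f, f ∈ F ∧ x - f ∈ A') ∧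
      ∀ y w : Fin d → ℤ, (y + P • w ∈ A' ↔ y ∈ A')

open Classical in
/-- On every coset of `W` meeting `F` the values `z^g` of its points sum to zero. -/
def Killed {d : ℕ} (F : Finset (Fin d → ℤ)) (W : Submodule ℚ (Fin d → ℚ)) (z : Fin d → ℂ) : Prop :=
  ∀ h ∈ F, ∑ g ∈ F,
    (if (fun k => ((g k - h k : ℤ) : ℚ)) ∈ W then ∏ k, z k ^ g k else 0) = 0

/-- All coordinates are roots of unity. -/
def Torsion {d : ℕ} (z : Fin d → ℂ) : Prop := ∀ k, ∃ n : ℕ, 0 < n ∧ z k ^ n = 1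

/-- The span of the vectors `b i`, `i ∈ S`. -/
def coordSpan {d : ℕ} (b : Fin d → Fin d → ℤ) (S : Finset (Fin d)) : Submodule ℚ (Fin d → ℚ) :=
  Submodule.span ℚ ((fun i (k : Fin d) => (b i k : ℚ)) '' (S : Set (Fin d)))

/-- Two independent normals not both orthogonal to all `b i`, `i ∈ S`, have a point of `F` alone
in a common level set. -/
def LoneOff {d : ℕ} (F : Finset (Fin d → ℤ)) (b : Fin d → Fin d → ℤ) (S : Finset (Fin d)) : Prop :=
  ∀ a c : Fin d → ℤ, LinearIndependent ℚ ![fun k => (a k : ℚ), fun k => (c k : ℚ)] →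
    (∃ i ∈ S, ∑ k, a k * b i k ≠ 0 ∨ ∑ k, c k * b i k ≠ 0) →
    ∃ h ∈ F, ∀ g ∈ F, g ≠ h →
      ∑ k, a k * g k ≠ ∑ k, a k * h k ∨ ∑ k, c k * g k ≠ ∑ k, c k * h k

end Vale.Agent.P043.Adapted
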